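import Vale.Agent.P050.Ultra.Leaf

/-!
Decomposable kernels: ordered minors and good blocks in modules.
-/

namespace Vale.Agent.P050.Ultra

open Finset Function MeasureTheory Vale.Agent.P050.H392

universe u v

open Classical in
/-- the kernel `W` with the block `R × S` replaced by the constant `p` -/
noncomputable def fill {X : Type u} {Y : Type v} (W : X → Y → ℝ) (R : Set X) (S : Set Y) (p : ℝ) :
    X → Y → ℝ :=
  fun x y => if x ∈ R ∧ y ∈ S then p else W x y

/-- `Decomposable W R S`: the kernel `W` restricted to `R × S` has ordered minors; or it is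
`a W' + c` there with `a, c ≥ 0` and `W' ≥ 0` decomposable; or it has a block `R' × S'` which is
decomposable, such that no element outside distinguishes the elements of the block, and such that
replacing the block by any constant between two of its values gives a decomposable kernel. -/
inductive Decomposable {X : Type u} {Y : Type v} : (X → Y → ℝ) → Set X → Set Y → Prop
  | minors (W : X → Y → ℝ) (R : Set X) (S : Set Y) (r : X → ℝ) (s : Y → ℝ) :
      (∀ x ∈ R, ∀ x' ∈ R, ∀ y ∈ S, ∀ y' ∈ S, r x ≤ r x' → s y ≤ s y' →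
        W x y' * W x' y ≤ W x y * W x' y') → Decomposable W R S
  | affine (W W' : X → Y → ℝ) (R : Set X) (S : Set Y) (a c : ℝ) :
      0 ≤ a → 0 ≤ c → (∀ x ∈ R, ∀ y ∈ S, 0 ≤ W' x y) →
      (∀ x ∈ R, ∀ y ∈ S, W x y = a * W' x y + c) → Decomposable W' R S → Decomposable W R S
  | block (W : X → Y → ℝ) (R R' : Set X) (S S' : Set Y) :
      R' ⊆ R → S' ⊆ S → R'.Nonempty → S'.Nonempty →
      (∀ x ∈ R', ∀ x' ∈ R', ∀ y ∈ S \ S', W x y = W x' y) →
      (∀ y ∈ S', ∀ y' ∈ S', ∀ x ∈ R \ R', W x y = W x y') →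
      Decomposable W R' S' →
      (∀ p : ℝ, (∃ x ∈ R', ∃ y ∈ S', W x y ≤ p) → (∃ x ∈ R', ∃ y ∈ S', p ≤ W x y) →
        Decomposable (fill W R' S' p) R S) →
      Decomposable W R S

/-- averages lie between two values -/
theorem mean_between {X Y : Type} [Fintype X] [Fintype Y] {m : X → ℝ} {n : Y → ℝ}
    (hm : ∀ x, 0 ≤ m x) (hm1 : ∑ x, m x = 1) (hn : ∀ y, 0 ≤ n y) (hn1 : ∑ y, n y = 1)
    (W : X → Y → ℝ) :
    (∃ x y, m x ≠ 0 ∧ n y ≠ 0 ∧ W x y ≤ mean m n W) ∧
      ∃ x y, m x ≠ 0 ∧ n y ≠ 0 ∧ mean m n W ≤ W x y := by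
  have hone : ∑ x, ∑ y, m x * n y = 1 := by
    rw [Finset.sum_congr rfl fun x _ => (Finset.mul_sum univ n (m x)).symm, ← Finset.sum_mul, hm1,
      hn1, one_mul]
  have hex : ∃ x y, m x ≠ 0 ∧ n y ≠ 0 := by
    by_contra hne
    push Not at hne
    have : ∑ x, ∑ y, m x * n y = 0 := by
      refine Finset.sum_eq_zero fun x _ => Finset.sum_eq_zero fun y _ => ?_
      by_cases h : m x = 0
      · rw [h, zero_mul]
      · rw [hne x y h, mul_zero]
    rw [this] at hone
    exact zero_ne_one hone
  have hdiff : ∑ x, ∑ y, m x * n y * (W x y - mean m n W) = 0 := by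
    have : ∀ x y, m x * n y * (W x y - mean m n W) =
        m x * n y * W x y - m x * n y * mean m n W := fun x y => by ring
    simp only [this, Finset.sum_sub_distrib, ← Finset.sum_mul, hone]
    unfold mean
    ring
  constructor
  · by_contra h
    push Not at h
    obtain ⟨x0, y0, hx0, hy0⟩ := hex
    have hpos : 0 < ∑ x, ∑ y, m x * n y * (W x y - mean m n W) := by
      have hnn : ∀ x y, 0 ≤ m x * n y * (W x y - mean m n W) := by
        intro x y
        by_cases h1 : m x = 0
        · rw [h1]; simp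
        · by_cases h2 : n y = 0
          · rw [h2]; simp
          · exact mul_nonneg (mul_nonneg (hm _) (hn _)) (by linarith [h x y h1 h2])
      refine Finset.sum_pos' (fun x _ => Finset.sum_nonneg fun y _ => hnn x y)
        ⟨x0, mem_univ _, Finset.sum_pos' (fun y _ => hnn x0 y) ⟨y0, mem_univ _, ?_⟩⟩
      exact mul_pos (mul_pos ((hm _).lt_of_ne' hx0) ((hn _).lt_of_ne' hy0))
        (by linarith [h x0 y0 hx0 hy0])
    exact hpos.ne' hdiff
  · by_contra h
    push Not at h
    obtain ⟨x0, y0, hx0, hy0⟩ := hex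
    have hpos : 0 < ∑ x, ∑ y, m x * n y * (mean m n W - W x y) := by
      have hnn : ∀ x y, 0 ≤ m x * n y * (mean m n W - W x y) := by
        intro x y
        by_cases h1 : m x = 0
        · rw [h1]; simp
        · by_cases h2 : n y = 0
          · rw [h2]; simp
          · exact mul_nonneg (mul_nonneg (hm _) (hn _)) (by linarith [h x y h1 h2])
      refine Finset.sum_pos' (fun x _ => Finset.sum_nonneg fun y _ => hnn x y)
        ⟨x0, mem_univ _, Finset.sum_pos' (fun y _ => hnn x0 y) ⟨y0, mem_univ _, ?_⟩⟩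
      exact mul_pos (mul_pos ((hm _).lt_of_ne' hx0) ((hn _).lt_of_ne' hy0))
        (by linarith [h x0 y0 hx0 hy0])
    have h2 : ∑ x, ∑ y, m x * n y * (mean m n W - W x y) =
        - ∑ x, ∑ y, m x * n y * (W x y - mean m n W) := by
      rw [← Finset.sum_neg_distrib]
      refine Finset.sum_congr rfl fun x _ => ?_
      rw [← Finset.sum_neg_distrib]
      exact Finset.sum_congr rfl fun y _ => by ring
    rw [h2, hdiff] at hpos
    simp at hpos

/-- adding constants -/
theorem BGood.affine {X Y : Type} [Fintype X] [Fintype Y] {m : X → ℝ} {n : Y → ℝ}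
    (hm1 : ∑ x, m x = 1) (hn1 : ∑ y, n y = 1)
    {W : X → Y → ℝ} (hg : BGood m n W) {a c : ℝ} (ha : 0 ≤ a)
    (hc : 0 ≤ c) : BGood m n fun x y => a * W x y + c := by
  intro A B _ _ _ _ E
  have h1 : mean m n (fun x y => a * W x y + c) = a * mean m n W + c := by
    unfold mean
    have : ∀ x y, m x * n y * (a * W x y + c) = a * (m x * n y * W x y) + c * (m x * n y) :=
      fun x y => by ring
    simp only [this, Finset.sum_add_distrib, ← Finset.mul_sum]
    rw [hn1]
    simp only [mul_one]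
    rw [hm1, mul_one]
  have h2 : bip m n E (fun x y => a * W x y + c) =
      ∑ F ∈ E.powerset, a ^ F.card * c ^ (E.card - F.card) * bip m n F W := by
    unfold bip
    have h3 : ∀ (x : A → X) (y : B → Y), (∏ a, m (x a)) * (∏ b, n (y b)) *
        ∏ e ∈ E, (a * W (x e.1) (y e.2) + c) =
        ∑ F ∈ E.powerset, a ^ F.card * c ^ (E.card - F.card) *
          ((∏ a, m (x a)) * (∏ b, n (y b)) * ∏ e ∈ F, W (x e.1) (y e.2)) := by
      intro x y
      rw [Finset.prod_add, Finset.mul_sum]
      refine Finset.sum_congr rfl fun F hF => ?_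
      rw [Finset.prod_mul_distrib, Finset.prod_const, Finset.prod_const,
        Finset.card_sdiff_of_subset (Finset.mem_powerset.1 hF)]
      ring
    rw [Finset.sum_congr rfl fun x _ => Finset.sum_congr rfl fun y _ => h3 x y]
    rw [Finset.sum_congr rfl fun x _ => Finset.sum_comm, Finset.sum_comm]
    simp only [← Finset.mul_sum]
  rw [h1, h2, ← Finset.sum_pow_mul_eq_add_pow]
  refine Finset.sum_le_sum fun F _ => ?_
  rw [mul_pow]
  have h4 := mul_le_mul_of_nonneg_left (hg A B F)
    (mul_nonneg (pow_nonneg ha F.card) (pow_nonneg hc (E.card - F.card)))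
  calc a ^ F.card * mean m n W ^ F.card * c ^ (E.card - F.card) =
        a ^ F.card * c ^ (E.card - F.card) * mean m n W ^ F.card := by ring
    _ ≤ _ := h4

theorem Decomposable.sound {X : Type u} {Y : Type v} {W : X → Y → ℝ} {R : Set X} {S : Set Y}
    (h : Decomposable W R S) (hW : ∀ x ∈ R, ∀ y ∈ S, 0 ≤ W x y) (X' Y' : Type) [Fintype X']
    [Fintype Y'] (z : X' → X) (w : Y' → Y) (m : X' → ℝ) (n : Y' → ℝ) (hm : ∀ x, 0 ≤ m x)
    (hm1 : ∑ x, m x = 1) (hn : ∀ y, 0 ≤ n y) (hn1 : ∑ y, n y = 1)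
    (hmR : ∀ i, m i ≠ 0 → z i ∈ R) (hnS : ∀ j, n j ≠ 0 → w j ∈ S) :
    BGood m n (fun i j => W (z i) (w j)) := by
  classical
  induction h generalizing m n with
  | minors W R S r s hrs =>
    refine BGood.congr (W' := fun i j => if z i ∈ R ∧ w j ∈ S then W (z i) (w j) else 0)
      (fun i j hi hj => (if_pos ⟨hmR i hi, hnS j hj⟩).symm) ?_
    refine good_of_minors_on hm hm1 hn hn1 (fun i j => ?_) (R := {i | z i ∈ R})
      (S := {j | w j ∈ S}) hmR hnS (r := fun i => r (z i)) (s := fun j => s (w j))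
      fun x hx x' hx' y hy y' hy' h1 h2 => ?_
    · split_ifs with h
      · exact hW _ h.1 _ h.2
      · exact le_rfl
    · rw [Set.mem_ofPred_eq] at hx hx' hy hy'
      simp only [hx, hx', hy, hy', and_self, if_true]
      exact hrs _ hx _ hx' _ hy _ hy' h1 h2
  | affine W W' R S a c ha hc hW' hWW hd ih =>
    refine BGood.congr (W' := fun i j => a * W' (z i) (w j) + c)
      (fun i j hi hj => hWW _ (hmR i hi) _ (hnS j hj)) ?_
    exact (ih hW' m n hm hm1 hn hn1 hmR hnS).affine hm1 hn1 ha hc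
  | block W R R' S S' hRR hSS hRn hSn h1 h2 hb hf ihb ihf =>
    set R'' : Finset X' := univ.filter fun i => z i ∈ R' with hR''
    set S'' : Finset Y' := univ.filter fun j => w j ∈ S' with hS''
    have hfill : ∀ p : ℝ, (fun i j => fill W R' S' p (z i) (w j)) =
        flat (fun i j => W (z i) (w j)) R'' S'' p := by
      intro p
      funext i j
      simp [fill, flat, hR'', hS'']
    have hfill0 : ∀ p : ℝ, 0 ≤ p → ∀ x ∈ R, ∀ y ∈ S, 0 ≤ fill W R' S' p x y := by
      intro p hp x hx y hy
      unfold fill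
      split_ifs
      · exact hp
      · exact hW _ hx _ hy
    by_cases hR0 : 0 < ∑ i ∈ R'', m i
    · by_cases hS0 : 0 < ∑ j ∈ S'', n j
      · have hsuppR : ∀ i, cond m R'' i ≠ 0 → z i ∈ R' := by
          intro i hi
          by_contra hc
          exact hi (by simp [cond, hR'', hc])
        have hsuppS : ∀ j, cond n S'' j ≠ 0 → w j ∈ S' := by
          intro j hj
          by_contra hc
          exact hj (by simp [cond, hS'', hc])
        have hgb := ihb (fun x hx y hy => hW x (hRR hx) y (hSS hy)) (cond m R'') (cond n S'')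
          (cond_nonneg hm _) (cond_sum hR0)
          (cond_nonneg hn _) (cond_sum hS0) hsuppR hsuppS
        obtain ⟨⟨x1, y1, hx1, hy1, hle⟩, x2, y2, hx2, hy2, hge⟩ :=
          mean_between (cond_nonneg hm R'') (cond_sum hR0) (cond_nonneg hn S'') (cond_sum hS0)
            (fun i j => W (z i) (w j))
        have hp0 : 0 ≤ mean (cond m R'') (cond n S'') (fun i j => W (z i) (w j)) :=
          (hW _ (hRR (hsuppR _ hx1)) _ (hSS (hsuppS _ hy1))).trans hle
        have hgf := ihf _ ⟨z x1, hsuppR _ hx1, w y1, hsuppS _ hy1, hle⟩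
          ⟨z x2, hsuppR _ hx2, w y2, hsuppS _ hy2, hge⟩ (hfill0 _ hp0) m n hm hm1 hn hn1 hmR hnS
        rw [hfill] at hgf
        -- correct the kernel outside the supports
        set W0 : X' → Y' → ℝ := fun i j =>
          if z i ∈ R ∧ w j ∈ S then W (z i) (w j) else 0 with hW0
        have hWW0 : ∀ i j, z i ∈ R → w j ∈ S → W (z i) (w j) = W0 i j := by
          intro i j hi hj
          simp [hW0, hi, hj]
        refine BGood.congr (W' := W0) (fun i j hi hj => hWW0 i j (hmR i hi) (hnS j hj)) ?_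
        have hmW0 : mean (cond m R'') (cond n S'') (fun i j => W (z i) (w j)) =
            mean (cond m R'') (cond n S'') W0 :=
          mean_congr fun i j hi hj => hWW0 i j (hRR (hsuppR i hi)) (hSS (hsuppS j hj))
        refine good_of_flat hm hn (fun i j => ?_) hR0 hS0 ?_ ?_ ?_ ?_
        · simp only [hW0]
          split_ifs with h
          · exact hW _ h.1 _ h.2
          · exact le_rfl
        · intro i hi i' hi' j hj
          have hi1 : z i ∈ R' := (mem_filter.1 hi).2
          have hi2 : z i' ∈ R' := (mem_filter.1 hi').2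
          have hj1 : w j ∉ S' := fun hc => hj (mem_filter.2 ⟨mem_univ _, hc⟩)
          simp only [hW0]
          by_cases hjS : w j ∈ S
          · rw [if_pos ⟨hRR hi1, hjS⟩, if_pos ⟨hRR hi2, hjS⟩]
            exact h1 _ hi1 _ hi2 _ ⟨hjS, hj1⟩
          · simp [hjS]
        · intro j hj j' hj' i hi
          have hj1 : w j ∈ S' := (mem_filter.1 hj).2
          have hj2 : w j' ∈ S' := (mem_filter.1 hj').2
          have hi1 : z i ∉ R' := fun hc => hi (mem_filter.2 ⟨mem_univ _, hc⟩)
          simp only [hW0]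
          by_cases hiR : z i ∈ R
          · rw [if_pos ⟨hiR, hSS hj1⟩, if_pos ⟨hiR, hSS hj2⟩]
            exact h2 _ hj1 _ hj2 _ ⟨hiR, hi1⟩
          · simp [hiR]
        · exact BGood.congr (fun i j hi hj =>
            (hWW0 i j (hRR (hsuppR i hi)) (hSS (hsuppS j hj))).symm) hgb
        · rw [← hmW0]
          refine BGood.congr (fun i j hi hj => ?_) hgf
          unfold flat
          split_ifs
          · rfl
          · exact (hWW0 i j (hmR i hi) (hnS j hj)).symm
      · have hz : ∀ j ∈ S'', n j = 0 := by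
          intro j hj
          by_contra hne
          exact hS0 (Finset.sum_pos' (fun _ _ => hn _) ⟨j, hj, (hn j).lt_of_ne' hne⟩)
        obtain ⟨x0, hx0⟩ := hRn
        obtain ⟨y0, hy0⟩ := hSn
        have hgf := ihf (W x0 y0) ⟨x0, hx0, y0, hy0, le_rfl⟩ ⟨x0, hx0, y0, hy0, le_rfl⟩
          (hfill0 _ (hW _ (hRR hx0) _ (hSS hy0))) m n hm hm1 hn hn1 hmR hnS
        refine BGood.congr (fun i j hi hj => ?_) hgf
        unfold fill
        rw [if_neg]
        rintro ⟨_, hj'⟩
        exact hj (hz j (mem_filter.2 ⟨mem_univ _, hj'⟩))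
    · have hz : ∀ i ∈ R'', m i = 0 := by
        intro i hi
        by_contra hne
        exact hR0 (Finset.sum_pos' (fun _ _ => hm _) ⟨i, hi, (hm i).lt_of_ne' hne⟩)
      obtain ⟨x0, hx0⟩ := hRn
      obtain ⟨y0, hy0⟩ := hSn
      have hgf := ihf (W x0 y0) ⟨x0, hx0, y0, hy0, le_rfl⟩ ⟨x0, hx0, y0, hy0, le_rfl⟩
        (hfill0 _ (hW _ (hRR hx0) _ (hSS hy0))) m n hm hm1 hn hn1 hmR hnS
      refine BGood.congr (fun i j hi hj => ?_) hgf
      unfold fill
      rw [if_neg]
      rintro ⟨hi', _⟩
      exact hi (hz i (mem_filter.2 ⟨mem_univ _, hi'⟩))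

/-- only the values on `R × S` matter -/
theorem Decomposable.congr {X : Type u} {Y : Type v} {W : X → Y → ℝ} {R : Set X} {S : Set Y}
    (h : Decomposable W R S) {W' : X → Y → ℝ} (hW : ∀ x ∈ R, ∀ y ∈ S, W x y = W' x y) :
    Decomposable W' R S := by
  induction h generalizing W' with
  | minors W R S r s hrs =>
    refine .minors W' R S r s fun x hx x' hx' y hy y' hy' h1 h2 => ?_
    rw [← hW x hx y hy, ← hW x hx y' hy', ← hW x' hx' y hy, ← hW x' hx' y' hy']
    exact hrs x hx x' hx' y hy y' hy' h1 h2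
  | affine W V R S a c ha hc hV hWV hd ih =>
    exact .affine W' V R S a c ha hc hV (fun x hx y hy => by rw [← hW x hx y hy, hWV x hx y hy]) hd
  | block W R R' S S' hRR hSS hRn hSn h1 h2 hb hf ihb ihf =>
    refine .block W' R R' S S' hRR hSS hRn hSn ?_ ?_ (ihb fun x hx y hy =>
      hW x (hRR hx) y (hSS hy)) ?_
    · intro x hx x' hx' y hy
      rw [← hW x (hRR hx) y hy.1, ← hW x' (hRR hx') y hy.1]
      exact h1 x hx x' hx' y hy
    · intro y hy y' hy' x hx
      rw [← hW x hx.1 y (hSS hy), ← hW x hx.1 y' (hSS hy')]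
      exact h2 y hy y' hy' x hx
    · rintro p ⟨x, hx, y, hy, hle⟩ ⟨x', hx', y', hy', hge⟩
      rw [← hW x (hRR hx) y (hSS hy)] at hle
      rw [← hW x' (hRR hx') y' (hSS hy')] at hge
      refine ihf p ⟨x, hx, y, hy, hle⟩ ⟨x', hx', y', hy', hge⟩ fun a ha b hb => ?_
      unfold fill
      split_ifs
      · rfl
      · exact hW a ha b hb

/-- the block rule with no condition of nonemptiness -/
theorem Decomposable.module {X : Type u} {Y : Type v} {W : X → Y → ℝ} {R R' : Set X}
    {S S' : Set Y} (hRR : R' ⊆ R) (hSS : S' ⊆ S)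
    (h1 : ∀ x ∈ R', ∀ x' ∈ R', ∀ y ∈ S \ S', W x y = W x' y)
    (h2 : ∀ y ∈ S', ∀ y' ∈ S', ∀ x ∈ R \ R', W x y = W x y')
    (hb : Decomposable W R' S') (hf : ∀ p : ℝ, Decomposable (fill W R' S' p) R S) :
    Decomposable W R S := by
  by_cases hR : R'.Nonempty
  · by_cases hS : S'.Nonempty
    · exact .block W R R' S S' hRR hSS hR hS h1 h2 hb fun p _ _ => hf p
    · refine (hf 0).congr fun x _ y _ => ?_
      unfold fill
      rw [if_neg fun h => hS ⟨y, h.2⟩]
  · refine (hf 0).congr fun x _ y _ => ?_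
    unfold fill
    rw [if_neg fun h => hR ⟨x, h.1⟩]

end Vale.Agent.P050.Ultra
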