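import Vale.Agent.P050.Ultra.Join

/-!
Kernels on probability spaces.
-/

namespace Vale.Agent.P050.Ultra

open Finset Function MeasureTheory Vale.Agent.P050 Vale.Agent.P050.H392 Vale.Agent.P050.H753

/-- every finite set of rows and columns lies in a decomposable rectangle -/
def LocallyDecomposable {Ω₁ Ω₂ : Type} (W : Ω₁ → Ω₂ → ℝ) : Prop :=
  ∀ (R : Finset Ω₁) (S : Finset Ω₂), ∃ R' S', ↑R ⊆ R' ∧ ↑S ⊆ S' ∧ Decomposable W R' S'

theorem TreeLike.locally {Ω : Type} {W : Ω → Ω → ℝ} (h : TreeLike W) :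
    LocallyDecomposable W := by
  classical
  intro R S
  refine ⟨_, _, ?_, ?_, h.decomposable (R ∪ S)⟩
  · rw [Finset.coe_subset]; exact Finset.subset_union_left
  · rw [Finset.coe_subset]; exact Finset.subset_union_right

theorem two_sided {A B Ω₁ Ω₂ : Type} [Fintype A] [Fintype B] [MeasurableSpace Ω₁]
    [MeasurableSpace Ω₂] (μ : Measure Ω₁) (ν : Measure Ω₂) [IsProbabilityMeasure μ]
    [IsProbabilityMeasure ν] (E : Finset (A × B)) (W : Ω₁ → Ω₂ → ℝ) (C : ℝ)
    (hW : Measurable (uncurry W)) (hW0 : ∀ s t, 0 ≤ W s t) (hWC : ∀ s t, W s t ≤ C)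
    (h : LocallyDecomposable W) :
    (∫ s, ∫ t, W s t ∂ν ∂μ) ^ E.card ≤ bipDensity μ ν E W := by
  classical
  exact bip_of_good μ ν hW hW0 hWC E fun N hN z w => sample_good hW0 h hN z w

theorem one_sided {V Ω : Type} [Fintype V] [DecidableEq V] [MeasurableSpace Ω]
    (H : SimpleGraph V) [DecidableRel H.Adj] (μ : Measure Ω) [IsProbabilityMeasure μ]
    (W : Ω → Ω → ℝ) (hW : ∀ s t, W s t = W t s) (C : ℝ) (hH : H.IsBipartite)
    (hm : Measurable (uncurry W)) (hW0 : ∀ s t, 0 ≤ W s t) (hWC : ∀ s t, W s t ≤ C)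
    (h : LocallyDecomposable W) :
    (∫ s, ∫ t, W s t ∂μ ∂μ) ^ H.edgeFinset.card ≤ kernelDensity μ H W hW := by
  obtain ⟨o, ho, hor⟩ := exists_level H hH
  rw [density_eq μ H W hW ho, ← card_orient H ho]
  exact dens_of_good μ hm hW0 hWC hor fun N hN z => sample_good hW0 h hN z z

end Vale.Agent.P050.Ultra
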