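import Vale.Agent.P050.Ultra.Space

/-!
Graph targets: conversion, disjoint unions, joins, graphs with no induced path on four vertices.
-/

namespace Vale.Agent.P050.Ultra

open Finset Function MeasureTheory Vale.Agent.P050 Vale.Agent.P050.H392 Vale.Agent.P050.H753

open Classical in
/-- the adjacency matrix of a graph -/
noncomputable def adjm {U : Type} (G : SimpleGraph U) (x y : U) : ℝ := if G.Adj x y then 1 else 0

theorem adjm_nonneg {U : Type} (G : SimpleGraph U) (x y : U) : 0 ≤ adjm G x y := by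
  unfold adjm; split_ifs <;> norm_num

theorem sum_adjm {U : Type} [Fintype U] (G : SimpleGraph U) :
    ∑ x, ∑ y, adjm G x y = 2 * (Nat.card G.edgeSet : ℝ) := by
  classical
  have h3 : ∀ x, ∑ y, adjm G x y = (G.degree x : ℝ) := by
    intro x
    simp only [adjm]
    rw [Finset.sum_boole, ← SimpleGraph.card_neighborFinset_eq_degree,
      SimpleGraph.neighborFinset_eq_filter]
  rw [Finset.sum_congr rfl fun x _ => h3 x, ← Nat.cast_sum,
    SimpleGraph.sum_degrees_eq_twice_card_edges, Nat.card_eq_fintype_card,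
    SimpleGraph.edgeFinset_card]
  push_cast; ring

theorem mean_adjm {U : Type} [Fintype U] (G : SimpleGraph U) :
    mean (unif U) (unif U) (adjm G) = edgeDensity G := by
  rw [mean_unif, sum_adjm]
  unfold edgeDensity
  rw [Nat.card_eq_fintype_card (α := U)]

theorem hom_adjm {V U : Type} [Fintype V] [DecidableEq V] [Fintype U]
    (H : SimpleGraph V) [DecidableRel H.Adj] (G : SimpleGraph U)
    {o : V → ℕ} (ho : ∀ u v, H.Adj u v → o u ≠ o v) :
    ∑ z : V → U, (∏ v, unif U (z v)) * ∏ e ∈ orient H o, adjm G (z e.1) (z e.2) =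
      homDensity H G := by
  classical
  have h1 := hom_sum H G ho (Fintype.equivFin U).symm
  have h2 : (∑ φ : V → Fin (Fintype.card U), ∏ e ∈ orient H o,
      (if G.Adj ((Fintype.equivFin U).symm (φ e.1)) ((Fintype.equivFin U).symm (φ e.2))
        then (1 : ℝ) else 0)) = ∑ ψ : V → U, ∏ e ∈ orient H o, adjm G (ψ e.1) (ψ e.2) := by
    rw [← Equiv.sum_comp (Equiv.piCongrRight fun _ : V => (Fintype.equivFin U).symm)
      (fun ψ : V → U => ∏ e ∈ orient H o, adjm G (ψ e.1) (ψ e.2))]
    refine Finset.sum_congr rfl fun φ _ => Finset.prod_congr rfl fun e _ => ?_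
    unfold adjm
    simp only [Equiv.piCongrRight_apply, Pi.map_apply]
  rw [h2] at h1
  unfold homDensity
  rw [← h1, Nat.card_eq_fintype_card (α := U), Nat.card_eq_fintype_card (α := V), Finset.sum_div]
  refine Finset.sum_congr rfl fun z _ => ?_
  simp only [unif, Finset.prod_const, Finset.card_univ]
  rw [one_div, inv_pow]
  ring

theorem against_of_good {U : Type} [Fintype U] [Nonempty U] {G : SimpleGraph U}
    (h : BGood (unif U) (unif U) (adjm G)) : SidorenkoAgainst G := by
  classical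
  intro V _ H hH
  have := Fintype.ofFinite V
  obtain ⟨o, ho, hor⟩ := exists_level H hH
  have h1 := h V V (orient H o)
  rw [bip_self_eq (unif_sum U) hor, hom_adjm H G ho, mean_adjm, card_orient H ho,
    SimpleGraph.edgeFinset_card, ← Nat.card_eq_fintype_card] at h1
  exact h1

/-- the bipartite graph on `A ⊕ B` with edge set `E` -/
def ofEdges {A B : Type} (E : Finset (A × B)) : SimpleGraph (A ⊕ B) where
  Adj u v := (∃ e ∈ E, u = Sum.inl e.1 ∧ v = Sum.inr e.2) ∨
    ∃ e ∈ E, v = Sum.inl e.1 ∧ u = Sum.inr e.2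
  symm := ⟨fun _ _ h => h.symm⟩
  loopless := ⟨fun u h => by
    rcases h with ⟨e, _, h1, h2⟩ | ⟨e, _, h1, h2⟩ <;> rw [h1] at h2 <;> exact absurd h2 (by simp)⟩

theorem good_of_against {U : Type} [Fintype U] [Nonempty U] {G : SimpleGraph U}
    (h : SidorenkoAgainst G) : BGood (unif U) (unif U) (adjm G) := by
  classical
  intro A B _ _ _ _ E
  set H := ofEdges E with hH
  set o : A ⊕ B → ℕ := Sum.elim (fun _ => 0) (fun _ => 1) with ho'
  have ho : ∀ u v, H.Adj u v → o u ≠ o v := by
    rintro u v (⟨e, _, h1, h2⟩ | ⟨e, _, h1, h2⟩) <;> rw [h1, h2] <;> simp [ho']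
  have hbip : H.IsBipartite := by
    refine ⟨⟨Sum.elim (fun _ => (0 : Fin 2)) (fun _ => 1), ?_⟩⟩
    rintro u v (⟨e, _, h1, h2⟩ | ⟨e, _, h1, h2⟩) <;> rw [h1, h2] <;> simp
  have hE : orient H o = E.image fun e => (Sum.inl e.1, Sum.inr e.2) := by
    ext ⟨u, v⟩
    simp only [orient, mem_filter, mem_univ, true_and, mem_image, Prod.mk.injEq]
    constructor
    · rintro ⟨⟨e, he, h1, h2⟩ | ⟨e, he, h1, h2⟩, hlt⟩
      · exact ⟨e, he, h1.symm, h2.symm⟩
      · rw [h1, h2] at hlt; simp [ho'] at hlt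
    · rintro ⟨e, he, rfl, rfl⟩
      exact ⟨Or.inl ⟨e, he, rfl, rfl⟩, by simp [ho']⟩
  have hinj : Injective fun e : A × B => ((Sum.inl e.1, Sum.inr e.2) : (A ⊕ B) × (A ⊕ B)) := by
    intro e e' h
    simp only [Prod.mk.injEq, Sum.inl.injEq, Sum.inr.injEq] at h
    exact Prod.ext h.1 h.2
  have h1 := h (A ⊕ B) H hbip
  rw [← hom_adjm H G ho, Nat.card_eq_fintype_card, ← SimpleGraph.edgeFinset_card,
    ← card_orient H ho, hE, Finset.card_image_of_injective _ hinj] at h1
  rw [mean_adjm]
  refine h1.trans (le_of_eq ?_)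
  unfold bip
  rw [← Equiv.sum_comp (Equiv.sumArrowEquivProdArrow A B U).symm, Fintype.sum_prod_type]
  refine Finset.sum_congr rfl fun x _ => Finset.sum_congr rfl fun y _ => ?_
  rw [Fintype.prod_sum_type, Finset.prod_image fun a _ b _ h => hinj h]
  rfl

end Vale.Agent.P050.Ultra
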