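import Vale.Agent.P050.Ultra.Graph

/-!
Disjoint unions and joins of targets.
-/

namespace Vale.Agent.P050.Ultra

open Finset Function MeasureTheory Vale.Agent.P050 Vale.Agent.P050.H392 Vale.Agent.P050.H753

section blocks

variable {X Y : Type} [Fintype X] [Fintype Y] [DecidableEq X] [DecidableEq Y]

theorem blocks_good {m : X → ℝ} {n : Y → ℝ} {W : X → Y → ℝ} {R : Finset X} {S : Finset Y}
    (hm : ∀ x, 0 ≤ m x) (hm1 : ∑ x, m x = 1) (hn : ∀ y, 0 ≤ n y) (hn1 : ∑ y, n y = 1)
    (hW : ∀ x y, 0 ≤ W x y) (hR : 0 < ∑ x ∈ R, m x) (hR' : 0 < ∑ x ∈ Rᶜ, m x)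
    (hS : 0 < ∑ y ∈ S, n y) (hS' : 0 < ∑ y ∈ Sᶜ, n y) {b b' : ℝ}
    (h12 : ∀ x ∈ R, ∀ y ∉ S, W x y = b) (h21 : ∀ x ∉ R, ∀ y ∈ S, W x y = b')
    (g1 : BGood (cond m R) (cond n S) W) (g2 : BGood (cond m Rᶜ) (cond n Sᶜ) W) :
    BGood m n W := by
  have hmean0 : ∀ (V : X → Y → ℝ) (R : Finset X) (S : Finset Y), (∀ x y, 0 ≤ V x y) →
      0 ≤ mean (cond m R) (cond n S) V := by
    intro V R S hV
    exact Finset.sum_nonneg fun x _ => Finset.sum_nonneg fun y _ =>
      mul_nonneg (mul_nonneg (cond_nonneg hm _ _) (cond_nonneg hn _ _)) (hV _ _)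
  refine good_of_flat hm hn hW hR hS (fun x hx x' hx' y hy => by rw [h12 x hx y hy, h12 x' hx' y hy])
    (fun y hy y' hy' x hx => by rw [h21 x hx y hy, h21 x hx y' hy']) g1 ?_
  set p := mean (cond m R) (cond n S) W with hp
  have hp0 : 0 ≤ p := hmean0 W R S hW
  have hV0 : ∀ x y, 0 ≤ flat W R S p x y := by
    intro x y
    unfold flat
    split_ifs
    · exact hp0
    · exact hW _ _
  have v12 : ∀ x ∈ R, ∀ y ∉ S, flat W R S p x y = b := fun x hx y hy => by
    unfold flat; rw [if_neg fun h => hy h.2, h12 x hx y hy]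
  have v21 : ∀ x ∉ R, ∀ y ∈ S, flat W R S p x y = b' := fun x hx y hy => by
    unfold flat; rw [if_neg fun h => hx h.1, h21 x hx y hy]
  have v22 : ∀ x ∉ R, ∀ y, flat W R S p x y = W x y := fun x hx y => by
    unfold flat; rw [if_neg fun h => hx h.1]
  refine good_of_flat hm hn hV0 hR' hS'
    (fun x hx x' hx' y hy => ?_) (fun y hy y' hy' x hx => ?_) ?_ ?_
  · rw [mem_compl] at hx hx'
    rw [mem_compl, not_not] at hy
    rw [v21 x hx y hy, v21 x' hx' y hy]
  · rw [mem_compl] at hy hy'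
    rw [mem_compl, not_not] at hx
    rw [v12 x hx y hy, v12 x hx y' hy']
  · refine BGood.congr (fun x y hx hy => v22 x (fun hxR => hx ?_) y) g2
    simp [cond, hxR]
  · set q := mean (cond m Rᶜ) (cond n Sᶜ) (flat W R S p) with hq
    have hq0 : 0 ≤ q := hmean0 _ _ _ hV0
    set V := flat (flat W R S p) Rᶜ Sᶜ q with hV
    have w11 : ∀ x ∈ R, ∀ y ∈ S, V x y = p := fun x hx y hy => by
      rw [hV]; unfold flat
      rw [if_neg fun h => (mem_compl.1 h.1) hx, if_pos ⟨hx, hy⟩]
    have w12 : ∀ x ∈ R, ∀ y ∉ S, V x y = b := fun x hx y hy => by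
      rw [hV, flat, if_neg fun h => (mem_compl.1 h.1) hx, v12 x hx y hy]
    have w21 : ∀ x ∉ R, ∀ y ∈ S, V x y = b' := fun x hx y hy => by
      rw [hV, flat, if_neg fun h => (mem_compl.1 h.2) hy, v21 x hx y hy]
    have w22 : ∀ x ∉ R, ∀ y ∉ S, V x y = q := fun x hx y hy => by
      rw [hV, flat, if_pos ⟨mem_compl.2 hx, mem_compl.2 hy⟩]
    have hVnn : ∀ x y, 0 ≤ V x y := by
      intro x y
      rw [hV, flat]
      split_ifs
      · exact hq0
      · exact hV0 _ _
    by_cases hpq : b * b' ≤ p * q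
    · refine good_of_minors hm hm1 hn hn1 hVnn (r := fun x => if x ∈ R then 0 else 1)
        (s := fun y => if y ∈ S then 0 else 1) ?_
      intro x x' y y' hr hs
      by_cases h1 : x ∈ R <;> by_cases h2 : x' ∈ R <;> by_cases h3 : y ∈ S <;>
        by_cases h4 : y' ∈ S <;>
        simp only [h1, h2, h3, h4, w11, w12, w21, w22, if_true, if_false, not_false_eq_true]
          at hr hs ⊢ <;> linarith
    · push Not at hpq
      refine good_of_minors hm hm1 hn hn1 hVnn (r := fun x => if x ∈ R then 1 else 0)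
        (s := fun y => if y ∈ S then 0 else 1) ?_
      intro x x' y y' hr hs
      by_cases h1 : x ∈ R <;> by_cases h2 : x' ∈ R <;> by_cases h3 : y ∈ S <;>
        by_cases h4 : y' ∈ S <;>
        simp only [h1, h2, h3, h4, w11, w12, w21, w22, if_true, if_false, not_false_eq_true]
          at hr hs ⊢ <;> linarith

end blocks

/-- weights carried over along a map -/
noncomputable def push {X' X : Type} [Fintype X'] [DecidableEq X] (φ : X' → X) (m : X' → ℝ)
    (x : X) : ℝ := ∑ w with φ w = x, m w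

theorem bip_push_map {A B X X' Y Y' : Type} [Fintype A] [Fintype B] [DecidableEq A]
    [DecidableEq B] [Fintype X] [Fintype X'] [Fintype Y] [Fintype Y'] [DecidableEq X]
    [DecidableEq Y] (φ : X' → X) (ψ : Y' → Y) (m : X' → ℝ) (n : Y' → ℝ) (E : Finset (A × B))
    (W : X → Y → ℝ) :
    bip (push φ m) (push ψ n) E W = bip m n E fun i j => W (φ i) (ψ j) := by
  unfold bip push
  have h1 : ∀ x : A → X, ∑ y : B → Y, (∏ a, ∑ w with φ w = x a, m w) *
      (∏ b, ∑ w with ψ w = y b, n w) * ∏ e ∈ E, W (x e.1) (y e.2) =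
      (∏ a, ∑ w with φ w = x a, m w) * ∑ w' : B → Y', (∏ b, n (w' b)) *
        ∏ e ∈ E, W (x e.1) (ψ (w' e.2)) := by
    intro x
    have h2 := sum_push (A := B) ψ n fun y => ∏ e ∈ E, W (x e.1) (y e.2)
    simp only [comp_apply] at h2
    rw [← h2, Finset.mul_sum]
    exact Finset.sum_congr rfl fun y _ => by ring
  rw [Finset.sum_congr rfl fun x _ => h1 x]
  have h3 := sum_push (A := A) φ m fun x => ∑ w' : B → Y', (∏ b, n (w' b)) *
        ∏ e ∈ E, W (x e.1) (ψ (w' e.2))
  rw [h3]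
  refine Finset.sum_congr rfl fun w _ => ?_
  rw [Finset.mul_sum]
  exact Finset.sum_congr rfl fun w' _ => by simp only [comp_apply]; ring

theorem mean_eq_bip {X Y : Type} [Fintype X] [Fintype Y] (m : X → ℝ) (n : Y → ℝ)
    (W : X → Y → ℝ) : mean m n W = bip m n ({(0, 0)} : Finset (Fin 1 × Fin 1)) W := by
  unfold mean bip
  rw [← Equiv.sum_comp (Equiv.funUnique (Fin 1) X).symm]
  refine Finset.sum_congr rfl fun x _ => ?_
  rw [← Equiv.sum_comp (Equiv.funUnique (Fin 1) Y).symm]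
  refine Finset.sum_congr rfl fun y _ => ?_
  simp

theorem BGood.push_map {X X' Y Y' : Type} [Fintype X] [Fintype X'] [Fintype Y] [Fintype Y']
    [DecidableEq X] [DecidableEq Y] {φ : X' → X} {ψ : Y' → Y} {m : X' → ℝ} {n : Y' → ℝ}
    {W : X → Y → ℝ} (h : BGood m n fun i j => W (φ i) (ψ j)) :
    BGood (push φ m) (push ψ n) W := by
  intro A B _ _ _ _ E
  rw [mean_eq_bip, bip_push_map, bip_push_map, ← mean_eq_bip]
  exact h A B E

theorem adjm_congr {U U' : Type} {G : SimpleGraph U} {G' : SimpleGraph U'} {x y : U}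
    {x' y' : U'} (h : G.Adj x y ↔ G'.Adj x' y') : adjm G x y = adjm G' x' y' := by
  unfold adjm
  by_cases h1 : G.Adj x y
  · rw [if_pos h1, if_pos (h.1 h1)]
  · rw [if_neg h1, if_neg fun h2 => h1 (h.2 h2)]

section graphs

variable {U₁ U₂ : Type} [Fintype U₁] [Fintype U₂] [Nonempty U₁] [Nonempty U₂]

theorem sum_compose {W : U₁ ⊕ U₂ → U₁ ⊕ U₂ → ℝ} (hW : ∀ x y, 0 ≤ W x y) {b b' : ℝ}
    (h12 : ∀ x y, W (Sum.inl x) (Sum.inr y) = b) (h21 : ∀ x y, W (Sum.inr x) (Sum.inl y) = b')
    (g1 : BGood (unif U₁) (unif U₁) fun x y => W (Sum.inl x) (Sum.inl y))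
    (g2 : BGood (unif U₂) (unif U₂) fun x y => W (Sum.inr x) (Sum.inr y)) :
    BGood (unif (U₁ ⊕ U₂)) (unif (U₁ ⊕ U₂)) W := by
  classical
  set R : Finset (U₁ ⊕ U₂) := univ.image Sum.inl with hR
  have hRc : Rᶜ = univ.image Sum.inr := by
    ext x
    rcases x with x | x <;> simp [hR]
  have hN : (0 : ℝ) < Fintype.card (U₁ ⊕ U₂) := by exact_mod_cast Fintype.card_pos
  have hN1 : (0 : ℝ) < Fintype.card U₁ := by exact_mod_cast Fintype.card_pos
  have hN2 : (0 : ℝ) < Fintype.card U₂ := by exact_mod_cast Fintype.card_pos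
  have hcR : (R.card : ℝ) = Fintype.card U₁ := by
    rw [hR, Finset.card_image_of_injective _ Sum.inl_injective, Finset.card_univ]
  have hcRc : (Rᶜ.card : ℝ) = Fintype.card U₂ := by
    rw [hRc, Finset.card_image_of_injective _ Sum.inr_injective, Finset.card_univ]
  have hs1 : ∑ x ∈ R, unif (U₁ ⊕ U₂) x = Fintype.card U₁ / Fintype.card (U₁ ⊕ U₂) := by
    unfold unif
    rw [Finset.sum_const, nsmul_eq_mul, hcR]
    ring
  have hs2 : ∑ x ∈ Rᶜ, unif (U₁ ⊕ U₂) x = Fintype.card U₂ / Fintype.card (U₁ ⊕ U₂) := by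
    unfold unif
    rw [Finset.sum_const, nsmul_eq_mul, hcRc]
    ring
  have hp1 : 0 < ∑ x ∈ R, unif (U₁ ⊕ U₂) x := by rw [hs1]; positivity
  have hp2 : 0 < ∑ x ∈ Rᶜ, unif (U₁ ⊕ U₂) x := by rw [hs2]; positivity
  have hc1 : cond (unif (U₁ ⊕ U₂)) R = push Sum.inl (unif U₁) := by
    funext x
    unfold cond push
    rw [hs1]
    rcases x with x | x
    · rw [if_pos (by simp [hR])]
      have : (univ.filter fun w : U₁ => (Sum.inl w : U₁ ⊕ U₂) = Sum.inl x) = {x} := by
        ext w; simp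
      rw [this, Finset.sum_singleton]
      unfold unif
      field_simp
    · rw [if_neg (by simp [hR])]
      simp
  have hc2 : cond (unif (U₁ ⊕ U₂)) Rᶜ = push Sum.inr (unif U₂) := by
    funext x
    unfold cond push
    rw [hs2]
    rcases x with x | x
    · rw [if_neg (by simp [hR])]
      simp
    · rw [if_pos (by simp [hR])]
      have : (univ.filter fun w : U₂ => (Sum.inr w : U₁ ⊕ U₂) = Sum.inr x) = {x} := by
        ext w; simp
      rw [this, Finset.sum_singleton]
      unfold unif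
      field_simp
  refine blocks_good (unif_nonneg _) (unif_sum _) (unif_nonneg _) (unif_sum _) hW hp1 hp2 hp1 hp2
    (b := b) (b' := b') ?_ ?_ ?_ ?_
  · intro x hx y hy
    rcases x with x | x
    · rcases y with y | y
      · exact absurd (by simp [hR]) hy
      · exact h12 x y
    · exact absurd hx (by simp [hR])
  · intro x hx y hy
    rcases x with x | x
    · exact absurd (by simp [hR]) hx
    · rcases y with y | y
      · exact h21 x y
      · exact absurd hy (by simp [hR])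
  · rw [hc1]; exact g1.push_map
  · rw [hc2]; exact g2.push_map

theorem against_sum {G₁ : SimpleGraph U₁} {G₂ : SimpleGraph U₂} (h1 : SidorenkoAgainst G₁)
    (h2 : SidorenkoAgainst G₂) : SidorenkoAgainst (G₁.sum G₂) := by
  refine against_of_good (sum_compose (adjm_nonneg _) (b := 0) (b' := 0) ?_ ?_ ?_ ?_)
  · intro x y; simp [adjm]
  · intro x y; simp [adjm]
  · have := good_of_against h1
    have h3 : (fun x y => adjm (G₁.sum G₂) (Sum.inl x) (Sum.inl y)) = adjm G₁ := by
      funext x y; exact adjm_congr SimpleGraph.sum_adj_inl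
    rw [h3]; exact this
  · have := good_of_against h2
    have h3 : (fun x y => adjm (G₁.sum G₂) (Sum.inr x) (Sum.inr y)) = adjm G₂ := by
      funext x y; exact adjm_congr SimpleGraph.sum_adj_inr
    rw [h3]; exact this

theorem against_join {G₁ : SimpleGraph U₁} {G₂ : SimpleGraph U₂} (h1 : SidorenkoAgainst G₁)
    (h2 : SidorenkoAgainst G₂) : SidorenkoAgainst (G₁ᶜ.sum G₂ᶜ)ᶜ := by
  refine against_of_good (sum_compose (adjm_nonneg _) (b := 1) (b' := 1) ?_ ?_ ?_ ?_)
  · intro x y; simp [adjm]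
  · intro x y; simp [adjm]
  · have := good_of_against h1
    have h3 : (fun x y => adjm (G₁ᶜ.sum G₂ᶜ)ᶜ (Sum.inl x) (Sum.inl y)) = adjm G₁ := by
      funext x y
      have : (G₁ᶜ.sum G₂ᶜ)ᶜ.Adj (Sum.inl x) (Sum.inl y) ↔ G₁.Adj x y := by
        simp only [SimpleGraph.compl_adj, SimpleGraph.sum_adj_inl, ne_eq, Sum.inl.injEq]
        constructor
        · rintro ⟨h4, h5⟩
          by_contra h6
          exact h5 ⟨h4, h6⟩
        · intro h
          exact ⟨h.ne, fun h' => h'.2 h⟩
      exact adjm_congr this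
    rw [h3]; exact this
  · have := good_of_against h2
    have h3 : (fun x y => adjm (G₁ᶜ.sum G₂ᶜ)ᶜ (Sum.inr x) (Sum.inr y)) = adjm G₂ := by
      funext x y
      have : (G₁ᶜ.sum G₂ᶜ)ᶜ.Adj (Sum.inr x) (Sum.inr y) ↔ G₂.Adj x y := by
        simp only [SimpleGraph.compl_adj, SimpleGraph.sum_adj_inr, ne_eq, Sum.inr.injEq]
        constructor
        · rintro ⟨h4, h5⟩
          by_contra h6
          exact h5 ⟨h4, h6⟩
        · intro h
          exact ⟨h.ne, fun h' => h'.2 h⟩
      exact adjm_congr this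
    rw [h3]; exact this

end graphs

/-- graphs whose adjacency matrix is decomposable -/
theorem against_of_decomposable {U : Type} [Finite U] [Nonempty U] {G : SimpleGraph U}
    (h : Decomposable (adjm G) Set.univ Set.univ) : SidorenkoAgainst G := by
  have := Fintype.ofFinite U
  exact against_of_good (h.sound (fun x _ y _ => adjm_nonneg G x y) U U id id _ _ (unif_nonneg _) (unif_sum _)
    (unif_nonneg _) (unif_sum _) (fun _ _ => trivial) (fun _ _ => trivial))

/-- graphs with no induced path on four vertices are tree-like -/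
theorem treeLike_of_p4free {U : Type} {G : SimpleGraph U}
    (h : IsEmpty (SimpleGraph.pathGraph 4 ↪g G)) : TreeLike (adjm G) := by
  classical
  have h4 : ∀ a b c d, G.Adj a b → G.Adj b c → G.Adj c d → ¬ G.Adj a c → ¬ G.Adj b d →
      ¬ G.Adj a d → False := by
    intro a b c d hab hbc hcd hac hbd had
    have hac' : a ≠ c := by rintro rfl; exact had hcd
    have hbd' : b ≠ d := by rintro rfl; exact had hab
    have had' : a ≠ d := by rintro rfl; exact hac hcd.symm
    refine h.false ⟨⟨![a, b, c, d], ?_⟩, ?_⟩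
    · intro i j hij
      fin_cases i <;> fin_cases j <;>
        simp_all [hab.ne, hbc.ne, hcd.ne, hab.ne', hbc.ne', hcd.ne', hac'.symm, hbd'.symm,
          had'.symm]
    · intro i j
      rw [SimpleGraph.pathGraph_adj]
      change G.Adj (![a, b, c, d] i) (![a, b, c, d] j) ↔ _
      fin_cases i <;> fin_cases j <;>
        simp [hab, hbc, hcd, hac, hbd, had, hab.symm, hbc.symm, hcd.symm,
          G.adj_comm c a, G.adj_comm d b, G.adj_comm d a]
  have hv : ∀ x y, adjm G x y = 1 ∧ G.Adj x y ∨ adjm G x y = 0 ∧ ¬ G.Adj x y := by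
    intro x y
    unfold adjm
    by_cases hxy : G.Adj x y
    · left; simp [hxy]
    · right; simp [hxy]
  refine ⟨fun x y => by unfold adjm; simp only [G.adj_comm], fun x y z => ?_,
    fun x y z t h1 h2 h3 h5 => ?_⟩
  · rcases hv x y with ⟨a1, _⟩ | ⟨a1, _⟩ <;> rcases hv y z with ⟨a2, _⟩ | ⟨a2, _⟩ <;>
      rcases hv x z with ⟨a3, _⟩ | ⟨a3, _⟩ <;> rw [a1, a2, a3] <;> simp
  · rcases hv x y with ⟨a1, b1⟩ | ⟨a1, b1⟩ <;> rcases hv x z with ⟨a2, b2⟩ | ⟨a2, b2⟩
    · rw [a1, a2]
    · exfalso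
      rcases hv y z with ⟨a3, b3⟩ | ⟨a3, b3⟩
      · rcases hv z t with ⟨a4, b4⟩ | ⟨a4, b4⟩
        · rcases hv x t with ⟨a5, b5⟩ | ⟨a5, b5⟩
          · rw [a2, a5] at h3; exact zero_ne_one h3
          · rcases hv y t with ⟨a6, b6⟩ | ⟨a6, b6⟩
            · rw [a5, a6] at h5; exact zero_ne_one h5
            · exact h4 x y z t b1 b3 b4 b2 b6 b5
        · rw [a3, a4] at h2; exact one_ne_zero h2
      · rw [a1, a3] at h1; exact one_ne_zero h1
    · exfalso
      rcases hv y z with ⟨a3, b3⟩ | ⟨a3, b3⟩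
      · rw [a1, a3] at h1; exact zero_ne_one h1
      · rcases hv z t with ⟨a4, b4⟩ | ⟨a4, b4⟩
        · rw [a3, a4] at h2; exact zero_ne_one h2
        · rcases hv x t with ⟨a5, b5⟩ | ⟨a5, b5⟩
          · rcases hv y t with ⟨a6, b6⟩ | ⟨a6, b6⟩
            · exact h4 z x t y b2.symm b5 b6.symm b4 b1 fun hzy => b3 hzy.symm
            · rw [a5, a6] at h5; exact one_ne_zero h5
          · rw [a2, a5] at h3; exact one_ne_zero h3
    · rw [a1, a2]

theorem against_p4free {U : Type} [Finite U] [Nonempty U] {G : SimpleGraph U}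
    (h : IsEmpty (SimpleGraph.pathGraph 4 ↪g G)) : SidorenkoAgainst G := by
  have := Fintype.ofFinite U
  have h1 := (treeLike_of_p4free h).decomposable (Finset.univ : Finset U)
  rw [Finset.coe_univ] at h1
  exact against_of_decomposable h1

end Vale.Agent.P050.Ultra
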