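import Vale.Agent.P050.Ultra.Module

/-!
Finite weights as measures; kernels with ordered minors.
-/

namespace Vale.Agent.P050.Ultra

open Finset Function MeasureTheory Vale.Agent.P050.H392

section meas

variable {A B X Y : Type} [Fintype A] [Fintype B] [DecidableEq A] [DecidableEq B]
  [Fintype X] [Fintype Y]

/-- the measure of the weights -/
noncomputable def wm [MeasurableSpace X] (m : X → ℝ) : Measure X :=
  ∑ x, ENNReal.ofReal (m x) • Measure.dirac x

theorem wm_singleton [MeasurableSpace X] [MeasurableSingletonClass X] {m : X → ℝ}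
    (hm : ∀ x, 0 ≤ m x) (x : X) : (wm m).real {x} = m x := by
  classical
  unfold wm Measure.real
  rw [Measure.finsetSum_apply]
  have : ∀ i : X, (ENNReal.ofReal (m i) • Measure.dirac i) {x} =
      if i = x then ENNReal.ofReal (m i) else 0 := by
    intro i
    rw [Measure.smul_apply, Measure.dirac_apply' _ (measurableSet_singleton x)]
    by_cases h : i = x
    · simp [h]
    · simp [h]
  rw [Finset.sum_congr rfl fun i _ => this i, Finset.sum_ite_eq' univ x]
  simp [ENNReal.toReal_ofReal (hm x)]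

theorem wm_prob [MeasurableSpace X] {m : X → ℝ} (hm : ∀ x, 0 ≤ m x) (h1 : ∑ x, m x = 1) :
    IsProbabilityMeasure (wm m) := by
  refine ⟨?_⟩
  unfold wm
  rw [Measure.finsetSum_apply]
  simp only [Measure.smul_apply, measure_univ, smul_eq_mul, mul_one]
  rw [← ENNReal.ofReal_sum_of_nonneg fun x _ => hm x, h1, ENNReal.ofReal_one]

omit [DecidableEq A] [Fintype X] in
theorem pi_real [MeasurableSpace X] [MeasurableSingletonClass X] (μ : Measure X)
    [IsProbabilityMeasure μ] (x : A → X) :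
    (Measure.pi fun _ : A => μ).real {x} = ∏ a, μ.real {x a} := by
  unfold Measure.real
  rw [Measure.pi_singleton, ENNReal.toReal_prod]

theorem good_of_meas {m : X → ℝ} {n : Y → ℝ} {W : X → Y → ℝ} (hm : ∀ x, 0 ≤ m x)
    (hm1 : ∑ x, m x = 1) (hn : ∀ y, 0 ≤ n y) (hn1 : ∑ y, n y = 1) (E : Finset (A × B))
    (h : ∀ [MeasurableSpace X] [MeasurableSingletonClass X] [MeasurableSpace Y]
      [MeasurableSingletonClass Y] (μ : Measure X) (ν : Measure Y) [IsProbabilityMeasure μ]
      [IsProbabilityMeasure ν], (∫ x, ∫ y, W x y ∂ν ∂μ) ^ E.card ≤ bipDensity μ ν E W) :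
    mean m n W ^ E.card ≤ bip m n E W := by
  let _ : MeasurableSpace X := ⊤
  let _ : MeasurableSpace Y := ⊤
  have := wm_prob hm hm1
  have := wm_prob hn hn1
  have h0 := h (wm m) (wm n)
  have h2 : ∫ x, ∫ y, W x y ∂(wm n) ∂(wm m) = mean m n W := by
    unfold mean
    rw [integral_fintype .of_finite]
    refine Finset.sum_congr rfl fun x _ => ?_
    rw [integral_fintype .of_finite, smul_eq_mul, Finset.mul_sum, wm_singleton hm]
    refine Finset.sum_congr rfl fun y _ => ?_
    rw [wm_singleton hn, smul_eq_mul]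
    ring
  have h3 : bipDensity (wm m) (wm n) E W = bip m n E W := by
    unfold bipDensity bip
    rw [integral_fintype .of_finite]
    refine Finset.sum_congr rfl fun x _ => ?_
    rw [integral_fintype .of_finite, smul_eq_mul, Finset.mul_sum, pi_real]
    refine Finset.sum_congr rfl fun y _ => ?_
    rw [pi_real, smul_eq_mul]
    simp only [wm_singleton hm, wm_singleton hn]
    ring
  rw [h2, h3] at h0
  exact h0

theorem bip_congr {m : X → ℝ} {n : Y → ℝ} {W W' : X → Y → ℝ}
    (h : ∀ x y, m x ≠ 0 → n y ≠ 0 → W x y = W' x y) (E : Finset (A × B)) :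
    bip m n E W = bip m n E W' := by
  unfold bip
  refine Finset.sum_congr rfl fun x _ => Finset.sum_congr rfl fun y _ => ?_
  by_cases h1 : ∀ a, m (x a) ≠ 0
  · by_cases h2 : ∀ b, n (y b) ≠ 0
    · congr 1
      exact Finset.prod_congr rfl fun e _ => h _ _ (h1 _) (h2 _)
    · push Not at h2
      obtain ⟨b, hb⟩ := h2
      rw [Finset.prod_eq_zero (mem_univ b) hb]
      ring
  · push Not at h1
    obtain ⟨a, ha⟩ := h1
    rw [Finset.prod_eq_zero (mem_univ a) ha]
    ring

theorem mean_congr {m : X → ℝ} {n : Y → ℝ} {W W' : X → Y → ℝ}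
    (h : ∀ x y, m x ≠ 0 → n y ≠ 0 → W x y = W' x y) : mean m n W = mean m n W' := by
  unfold mean
  refine Finset.sum_congr rfl fun x _ => Finset.sum_congr rfl fun y _ => ?_
  by_cases h1 : m x = 0
  · rw [h1]; ring
  · by_cases h2 : n y = 0
    · rw [h2]; ring
    · rw [h x y h1 h2]

theorem BGood.congr {m : X → ℝ} {n : Y → ℝ} {W W' : X → Y → ℝ}
    (h : ∀ x y, m x ≠ 0 → n y ≠ 0 → W x y = W' x y) (hg : BGood m n W') : BGood m n W := by
  intro A B _ _ _ _ E
  rw [bip_congr h, mean_congr h]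
  exact hg A B E

theorem good_of_minors {m : X → ℝ} {n : Y → ℝ} {W : X → Y → ℝ} (hm : ∀ x, 0 ≤ m x)
    (hm1 : ∑ x, m x = 1) (hn : ∀ y, 0 ≤ n y) (hn1 : ∑ y, n y = 1) (hW : ∀ x y, 0 ≤ W x y)
    {r : X → ℝ} {s : Y → ℝ} (h : OrderedMinors W r s) : BGood m n W := by
  intro A B _ _ _ _ E
  refine good_of_meas hm hm1 hn hn1 E ?_
  intro _ _ _ _ μ ν _ _
  obtain ⟨C, hC⟩ : ∃ C, ∀ x y, W x y ≤ C := by
    refine ⟨∑ x, ∑ y, W x y, fun x y => ?_⟩
    exact (Finset.single_le_sum (fun y _ => hW x y) (mem_univ y)).trans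
      (Finset.single_le_sum (f := fun x => ∑ y, W x y)
        (fun x _ => Finset.sum_nonneg fun y _ => hW x y) (mem_univ x))
  exact bip_ineq μ ν (measurable_of_countable _) hW hC h E

/-- the minors only matter on the supports -/
theorem good_of_minors_on {m : X → ℝ} {n : Y → ℝ} {W : X → Y → ℝ} (hm : ∀ x, 0 ≤ m x)
    (hm1 : ∑ x, m x = 1) (hn : ∀ y, 0 ≤ n y) (hn1 : ∑ y, n y = 1) (hW : ∀ x y, 0 ≤ W x y)
    {R : Set X} {S : Set Y} (hmR : ∀ x, m x ≠ 0 → x ∈ R) (hnS : ∀ y, n y ≠ 0 → y ∈ S)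
    {r : X → ℝ} {s : Y → ℝ}
    (h : ∀ x ∈ R, ∀ x' ∈ R, ∀ y ∈ S, ∀ y' ∈ S, r x ≤ r x' → s y ≤ s y' →
      W x y' * W x' y ≤ W x y * W x' y') : BGood m n W := by
  classical
  refine BGood.congr (W' := fun x y => if x ∈ R ∧ y ∈ S then W x y else 0) ?_ ?_
  · intro x y hx hy
    rw [if_pos ⟨hmR x hx, hnS y hy⟩]
  · refine good_of_minors hm hm1 hn hn1 (fun x y => ?_) (r := r) (s := s) ?_
    · split_ifs
      · exact hW x y
      · exact le_rfl
    · intro x x' y y' hx hy
      by_cases h1 : x ∈ R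
      · by_cases h2 : x' ∈ R
        · by_cases h3 : y ∈ S
          · by_cases h4 : y' ∈ S
            · simp only [h1, h2, h3, h4, and_self, if_true]
              exact h x h1 x' h2 y h3 y' h4 hx hy
            · simp [h4]
          · simp [h3]
        · simp [h2]
      · simp [h1]

end meas

end Vale.Agent.P050.Ultra
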