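import Vale.Agent.P050.H753.Comb

/-!
Weighted two-sided densities over finite alphabets, and replacing a block of a kernel by its mean.
-/

namespace Vale.Agent.P050.Ultra

open Finset Function MeasureTheory

/-- the mean of a finite kernel -/
noncomputable def mean {X Y : Type} [Fintype X] [Fintype Y] (m : X → ℝ) (n : Y → ℝ)
    (W : X → Y → ℝ) : ℝ :=
  ∑ x, ∑ y, m x * n y * W x y

/-- the weighted density of the bipartite graph `E ⊆ A × B` in a finite kernel -/
noncomputable def bip {A B X Y : Type} [Fintype A] [Fintype B] [Fintype X] [Fintype Y]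
    [DecidableEq A] [DecidableEq B]
    (m : X → ℝ) (n : Y → ℝ) (E : Finset (A × B)) (W : X → Y → ℝ) : ℝ :=
  ∑ x : A → X, ∑ y : B → Y, (∏ a, m (x a)) * (∏ b, n (y b)) * ∏ e ∈ E, W (x e.1) (y e.2)

/-- the inequality for every bipartite graph -/
def BGood {X Y : Type} [Fintype X] [Fintype Y] (m : X → ℝ) (n : Y → ℝ) (W : X → Y → ℝ) : Prop :=
  ∀ (A B : Type) [Fintype A] [Fintype B] [DecidableEq A] [DecidableEq B] (E : Finset (A × B)),
    mean m n W ^ E.card ≤ bip m n E W

theorem sum_push {A X X' : Type} [Fintype A] [Fintype X] [Fintype X'] [DecidableEq A]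
    [DecidableEq X] (φ : X' → X) (m' : X' → ℝ) (f : (A → X) → ℝ) :
    ∑ x : A → X, (∏ a, ∑ w with φ w = x a, m' w) * f x =
      ∑ w : A → X', (∏ a, m' (w a)) * f (φ ∘ w) := by
  have h1 : ∀ x : A → X, (∏ a, ∑ w with φ w = x a, m' w) * f x =
      ∑ w : A → X' with φ ∘ w = x, (∏ a, m' (w a)) * f (φ ∘ w) := by
    intro x
    rw [Finset.prod_univ_sum, Finset.sum_mul]
    have : Fintype.piFinset (fun a : A => univ.filter fun w : X' => φ w = x a) =
        univ.filter fun w : A → X' => φ ∘ w = x := by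
      ext w
      simp only [Fintype.mem_piFinset, mem_filter, mem_univ, true_and]
      exact ⟨fun h => funext h, fun h a => congrFun h a⟩
    rw [this]
    refine Finset.sum_congr rfl fun w hw => ?_
    rw [(mem_filter.1 hw).2]
  rw [Finset.sum_congr rfl fun x _ => h1 x, Finset.sum_fiberwise]

/-- the conditional weights -/
noncomputable def cond {X : Type} [Fintype X] [DecidableEq X] (m : X → ℝ) (R : Finset X)
    (x : X) : ℝ :=
  if x ∈ R then m x / ∑ x' ∈ R, m x' else 0

theorem cond_nonneg {X : Type} [Fintype X] [DecidableEq X] {m : X → ℝ} (hm : ∀ x, 0 ≤ m x)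
    (R : Finset X) (x : X) : 0 ≤ cond m R x := by
  unfold cond
  split_ifs
  · exact div_nonneg (hm x) (Finset.sum_nonneg fun _ _ => hm _)
  · exact le_rfl

theorem cond_sum {X : Type} [Fintype X] [DecidableEq X] {m : X → ℝ} {R : Finset X}
    (hR : 0 < ∑ x ∈ R, m x) : ∑ x, cond m R x = 1 := by
  unfold cond
  rw [Finset.sum_ite_mem, Finset.univ_inter, ← Finset.sum_div, div_self hR.ne']

theorem push_cond {X : Type} [Fintype X] [DecidableEq X] {m : X → ℝ} {R : Finset X}
    (hR : 0 < ∑ x ∈ R, m x) (x : X) :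
    ∑ w : X × X with (if w.1 ∈ R then w.2 else w.1) = x, m w.1 * cond m R w.2 = m x := by
  rw [Finset.sum_filter, Fintype.sum_prod_type]
  have h1 : ∀ t : X, ∑ u : X, (if (if t ∈ R then u else t) = x then m t * cond m R u else 0) =
      if t ∈ R then m t * cond m R x else if t = x then m t else 0 := by
    intro t
    by_cases ht : t ∈ R
    · simp only [ht, if_true]
      rw [Finset.sum_ite_eq' univ x fun u => m t * cond m R u]
      simp
    · simp only [ht, if_false]
      by_cases hx : t = x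
      · simp only [hx, if_true]
        rw [← Finset.mul_sum, cond_sum hR, mul_one]
      · simp [hx]
  rw [Finset.sum_congr rfl fun t _ => h1 t]
  by_cases hx : x ∈ R
  · have h2 : ∀ t : X, (if t ∈ R then m t * cond m R x else if t = x then m t else 0) =
        if t ∈ R then m t * cond m R x else 0 := by
      intro t
      by_cases ht : t ∈ R
      · simp [ht]
      · have : t ≠ x := fun h => ht (h ▸ hx)
        simp [ht, this]
    rw [Finset.sum_congr rfl fun t _ => h2 t, Finset.sum_ite_mem, Finset.univ_inter,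
      ← Finset.sum_mul]
    unfold cond
    rw [if_pos hx]
    field_simp
  · have h2 : ∀ t : X, (if t ∈ R then m t * cond m R x else if t = x then m t else 0) =
        if t = x then m t else 0 := by
      intro t
      by_cases ht : t ∈ R
      · have : t ≠ x := fun h => hx (h ▸ ht)
        simp [ht, this, cond, hx]
      · simp [ht]
    rw [Finset.sum_congr rfl fun t _ => h2 t, Finset.sum_ite_eq' univ x]
    simp

/-- replace the block `R × S` by the constant `p` -/
noncomputable def flat {X Y : Type} [DecidableEq X] [DecidableEq Y] (W : X → Y → ℝ) (R : Finset X)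
    (S : Finset Y) (p : ℝ) : X → Y → ℝ :=
  fun x y => if x ∈ R ∧ y ∈ S then p else W x y

section module

variable {A B X Y : Type} [Fintype A] [Fintype B] [DecidableEq A] [DecidableEq B]
  [Fintype X] [Fintype Y] [DecidableEq X] [DecidableEq Y]

theorem bip_push {m : X → ℝ} {n : Y → ℝ} {R : Finset X} {S : Finset Y}
    (hR : 0 < ∑ x ∈ R, m x) (hS : 0 < ∑ y ∈ S, n y) (E : Finset (A × B)) (W : X → Y → ℝ) :
    bip m n E W = ∑ t : A → X, ∑ t' : B → Y, (∏ a, m (t a)) * (∏ b, n (t' b)) *
      ∑ u : A → X, ∑ u' : B → Y, (∏ a, cond m R (u a)) * (∏ b, cond n S (u' b)) *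
        ∏ e ∈ E, W (if t e.1 ∈ R then u e.1 else t e.1) (if t' e.2 ∈ S then u' e.2 else t' e.2) := by
  unfold bip
  have hA : ∀ f : (A → X) → ℝ, ∑ x : A → X, (∏ a, m (x a)) * f x =
      ∑ t : A → X, ∑ u : A → X, (∏ a, m (t a)) * (∏ a, cond m R (u a)) *
        f (fun a => if t a ∈ R then u a else t a) := by
    intro f
    have h1 := sum_push (A := A) (fun w : X × X => if w.1 ∈ R then w.2 else w.1)
      (fun w => m w.1 * cond m R w.2) f
    simp only [push_cond hR] at h1
    rw [h1, ← (Equiv.arrowProdEquivProdArrow A (fun _ => X) (fun _ => X)).symm.sum_comp,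
      Fintype.sum_prod_type]
    refine Finset.sum_congr rfl fun t _ => Finset.sum_congr rfl fun u _ => ?_
    simp only [Equiv.arrowProdEquivProdArrow, Equiv.coe_fn_symm_mk, Finset.prod_mul_distrib]
    rfl
  have hB : ∀ f : (B → Y) → ℝ, ∑ y : B → Y, (∏ b, n (y b)) * f y =
      ∑ t : B → Y, ∑ u : B → Y, (∏ b, n (t b)) * (∏ b, cond n S (u b)) *
        f (fun b => if t b ∈ S then u b else t b) := by
    intro f
    have h1 := sum_push (A := B) (fun w : Y × Y => if w.1 ∈ S then w.2 else w.1)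
      (fun w => n w.1 * cond n S w.2) f
    simp only [push_cond hS] at h1
    rw [h1, ← (Equiv.arrowProdEquivProdArrow B (fun _ => Y) (fun _ => Y)).symm.sum_comp,
      Fintype.sum_prod_type]
    refine Finset.sum_congr rfl fun t _ => Finset.sum_congr rfl fun u _ => ?_
    simp only [Equiv.arrowProdEquivProdArrow, Equiv.coe_fn_symm_mk, Finset.prod_mul_distrib]
    rfl
  have h1 : ∑ x : A → X, ∑ y : B → Y, (∏ a, m (x a)) * (∏ b, n (y b)) *
        ∏ e ∈ E, W (x e.1) (y e.2) =
      ∑ x : A → X, (∏ a, m (x a)) * ∑ y : B → Y, (∏ b, n (y b)) *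
        ∏ e ∈ E, W (x e.1) (y e.2) := by
    refine Finset.sum_congr rfl fun x _ => ?_
    rw [Finset.mul_sum]
    exact Finset.sum_congr rfl fun y _ => by ring
  rw [h1, hA]
  refine Finset.sum_congr rfl fun t _ => ?_
  have h2 : ∀ u : A → X, ∑ y : B → Y, (∏ b, n (y b)) *
        ∏ e ∈ E, W (if t e.1 ∈ R then u e.1 else t e.1) (y e.2) =
      ∑ t' : B → Y, ∑ u' : B → Y, (∏ b, n (t' b)) * (∏ b, cond n S (u' b)) *
        ∏ e ∈ E, W (if t e.1 ∈ R then u e.1 else t e.1)
          (if t' e.2 ∈ S then u' e.2 else t' e.2) := fun u => hB _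
  simp only [h2]
  simp only [Finset.mul_sum]
  rw [Finset.sum_comm]
  refine Finset.sum_congr rfl fun t' _ => Finset.sum_congr rfl fun u _ =>
    Finset.sum_congr rfl fun u' _ => by ring

theorem module_le {m : X → ℝ} {n : Y → ℝ} {W : X → Y → ℝ} {R : Finset X} {S : Finset Y}
    (hm : ∀ x, 0 ≤ m x) (hn : ∀ y, 0 ≤ n y) (hW : ∀ x y, 0 ≤ W x y)
    (hR : 0 < ∑ x ∈ R, m x) (hS : 0 < ∑ y ∈ S, n y)
    (h1 : ∀ x ∈ R, ∀ x' ∈ R, ∀ y ∉ S, W x y = W x' y)
    (h2 : ∀ y ∈ S, ∀ y' ∈ S, ∀ x ∉ R, W x y = W x y')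
    (hg : BGood (cond m R) (cond n S) W) (E : Finset (A × B)) :
    bip m n E (flat W R S (mean (cond m R) (cond n S) W)) ≤ bip m n E W := by
  rw [bip_push hR hS E W]
  unfold bip
  refine Finset.sum_le_sum fun t _ => Finset.sum_le_sum fun t' _ => ?_
  refine mul_le_mul_of_nonneg_left ?_ (mul_nonneg (Finset.prod_nonneg fun _ _ => hm _)
    (Finset.prod_nonneg fun _ _ => hn _))
  set E1 : Finset (A × B) := E.filter fun e => t e.1 ∈ R ∧ t' e.2 ∈ S with hE1
  set E0 : Finset (A × B) := E.filter fun e => ¬ (t e.1 ∈ R ∧ t' e.2 ∈ S) with hE0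
  have h3 : ∑ u : A → X, ∑ u' : B → Y, (∏ a, cond m R (u a)) * (∏ b, cond n S (u' b)) *
        ∏ e ∈ E, W (if t e.1 ∈ R then u e.1 else t e.1) (if t' e.2 ∈ S then u' e.2 else t' e.2) =
      (∏ e ∈ E0, W (t e.1) (t' e.2)) * bip (cond m R) (cond n S) E1 W := by
    unfold bip
    rw [Finset.mul_sum]
    refine Finset.sum_congr rfl fun u _ => ?_
    rw [Finset.mul_sum]
    refine Finset.sum_congr rfl fun u' _ => ?_
    by_cases hu : ∀ a, u a ∈ R
    · by_cases hu' : ∀ b, u' b ∈ S
      · rw [← Finset.prod_filter_mul_prod_filter_not E (fun e => t e.1 ∈ R ∧ t' e.2 ∈ S)]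
        have h4 : ∏ e ∈ E1, W (if t e.1 ∈ R then u e.1 else t e.1)
            (if t' e.2 ∈ S then u' e.2 else t' e.2) = ∏ e ∈ E1, W (u e.1) (u' e.2) := by
          refine Finset.prod_congr rfl fun e he => ?_
          obtain ⟨_, he1, he2⟩ := mem_filter.1 he
          rw [if_pos he1, if_pos he2]
        have h5 : ∏ e ∈ E0, W (if t e.1 ∈ R then u e.1 else t e.1)
            (if t' e.2 ∈ S then u' e.2 else t' e.2) = ∏ e ∈ E0, W (t e.1) (t' e.2) := by
          refine Finset.prod_congr rfl fun e he => ?_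
          obtain ⟨_, he1⟩ := mem_filter.1 he
          by_cases hR1 : t e.1 ∈ R
          · have hS1 : t' e.2 ∉ S := fun h => he1 ⟨hR1, h⟩
            rw [if_pos hR1, if_neg hS1]
            exact h1 _ (hu _) _ hR1 _ hS1
          · rw [if_neg hR1]
            by_cases hS1 : t' e.2 ∈ S
            · rw [if_pos hS1]
              exact h2 _ (hu' _) _ hS1 _ hR1
            · rw [if_neg hS1]
        rw [h4, h5]
        ring
      · push Not at hu'
        obtain ⟨b, hb⟩ := hu'
        have : ∏ b, cond n S (u' b) = 0 :=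
          Finset.prod_eq_zero (mem_univ b) (by simp [cond, hb])
        rw [this]
        ring
    · push Not at hu
      obtain ⟨a, ha⟩ := hu
      have : ∏ a, cond m R (u a) = 0 :=
        Finset.prod_eq_zero (mem_univ a) (by simp [cond, ha])
      rw [this]
      ring
  rw [h3, ← Finset.prod_filter_mul_prod_filter_not E (fun e => t e.1 ∈ R ∧ t' e.2 ∈ S)]
  have h4 : ∏ e ∈ E1, flat W R S (mean (cond m R) (cond n S) W) (t e.1) (t' e.2) =
      mean (cond m R) (cond n S) W ^ E1.card := by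
    rw [← Finset.prod_const]
    refine Finset.prod_congr rfl fun e he => ?_
    exact if_pos (mem_filter.1 he).2
  have h5 : ∏ e ∈ E0, flat W R S (mean (cond m R) (cond n S) W) (t e.1) (t' e.2) =
      ∏ e ∈ E0, W (t e.1) (t' e.2) := by
    refine Finset.prod_congr rfl fun e he => ?_
    exact if_neg (mem_filter.1 he).2
  rw [h4, h5, mul_comm]
  exact mul_le_mul_of_nonneg_left (hg A B E1) (Finset.prod_nonneg fun _ _ => hW _ _)

theorem mean_flat {m : X → ℝ} {n : Y → ℝ} {W : X → Y → ℝ} {R : Finset X} {S : Finset Y}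
    (hR : 0 < ∑ x ∈ R, m x) (hS : 0 < ∑ y ∈ S, n y) :
    mean m n (flat W R S (mean (cond m R) (cond n S) W)) = mean m n W := by
  set p := mean (cond m R) (cond n S) W with hp
  have h1 : p * (∑ x ∈ R, m x) * (∑ y ∈ S, n y) = ∑ x ∈ R, ∑ y ∈ S, m x * n y * W x y := by
    have h2 : p = ∑ x ∈ R, ∑ y ∈ S, m x / (∑ x ∈ R, m x) * (n y / ∑ y ∈ S, n y) * W x y := by
      rw [hp]
      unfold mean cond
      rw [← Finset.sum_subset (Finset.subset_univ R) (fun x _ hx => by simp [hx])]
      refine Finset.sum_congr rfl fun x hx => ?_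
      rw [← Finset.sum_subset (Finset.subset_univ S) (fun y _ hy => by simp [hy])]
      refine Finset.sum_congr rfl fun y hy => ?_
      rw [if_pos hx, if_pos hy]
    rw [h2, Finset.sum_mul, Finset.sum_mul]
    refine Finset.sum_congr rfl fun x _ => ?_
    rw [Finset.sum_mul, Finset.sum_mul]
    refine Finset.sum_congr rfl fun y _ => ?_
    have := hR.ne'
    have := hS.ne'
    field_simp
  have h3 : ∀ V : X → Y → ℝ, mean m n V =
      (∑ x ∈ R, ∑ y ∈ S, m x * n y * V x y) + ((∑ x ∈ R, ∑ y ∈ Sᶜ, m x * n y * V x y) +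
        ∑ x ∈ Rᶜ, ∑ y, m x * n y * V x y) := by
    intro V
    unfold mean
    rw [← Finset.sum_add_sum_compl R, ← add_assoc, ← Finset.sum_add_distrib]
    congr 1
    refine Finset.sum_congr rfl fun x _ => ?_
    rw [Finset.sum_add_sum_compl]
  rw [h3, h3 W]
  congr 1
  · rw [← h1]
    have : ∀ x ∈ R, ∑ y ∈ S, m x * n y * flat W R S p x y = m x * ((∑ y ∈ S, n y) * p) := by
      intro x hx
      rw [Finset.sum_mul, Finset.mul_sum]
      refine Finset.sum_congr rfl fun y hy => ?_
      unfold flat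
      rw [if_pos ⟨hx, hy⟩]
      ring
    rw [Finset.sum_congr rfl this, ← Finset.sum_mul]
    ring
  · congr 1
    · refine Finset.sum_congr rfl fun x _ => Finset.sum_congr rfl fun y hy => ?_
      unfold flat
      rw [if_neg fun h => (Finset.mem_compl.1 hy) h.2]
    · refine Finset.sum_congr rfl fun x hx => Finset.sum_congr rfl fun y _ => ?_
      unfold flat
      rw [if_neg fun h => (Finset.mem_compl.1 hx) h.1]

/-- a good block in a module can be replaced by its mean -/
theorem good_of_flat {m : X → ℝ} {n : Y → ℝ} {W : X → Y → ℝ} {R : Finset X} {S : Finset Y}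
    (hm : ∀ x, 0 ≤ m x) (hn : ∀ y, 0 ≤ n y) (hW : ∀ x y, 0 ≤ W x y)
    (hR : 0 < ∑ x ∈ R, m x) (hS : 0 < ∑ y ∈ S, n y)
    (h1 : ∀ x ∈ R, ∀ x' ∈ R, ∀ y ∉ S, W x y = W x' y)
    (h2 : ∀ y ∈ S, ∀ y' ∈ S, ∀ x ∉ R, W x y = W x y')
    (hg : BGood (cond m R) (cond n S) W)
    (hf : BGood m n (flat W R S (mean (cond m R) (cond n S) W))) : BGood m n W := by
  intro A B _ _ _ _ E
  rw [← mean_flat hR hS]
  exact (hf A B E).trans (module_le hm hn hW hR hS h1 h2 hg E)

end module

end Vale.Agent.P050.Ultra
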