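import Vale.Agent.P050.Ultra.Tree

/-!
From finite weights to kernels on probability spaces and to graphs.
-/

namespace Vale.Agent.P050.Ultra

open Finset Function MeasureTheory Vale.Agent.P050.H392 Vale.Agent.P050.H753

/-- one-sided and two-sided densities agree for a graph all of whose edges are oriented from one
part to the other one -/
theorem bip_self_eq {V U : Type} [Fintype V] [DecidableEq V] [Fintype U] {m : U → ℝ}
    (hm1 : ∑ x, m x = 1) {E : Finset (V × V)} (hE : Oriented E) (W : U → U → ℝ) :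
    bip m m E W = ∑ z : V → U, (∏ v, m (z v)) * ∏ e ∈ E, W (z e.1) (z e.2) := by
  classical
  have hone : ∑ z' : V → U, ∏ v, m (z' v) = 1 := by
    have := Finset.prod_univ_sum (fun _ : V => (univ : Finset U)) (fun _ x => m x)
    rw [Fintype.piFinset_univ] at this
    rw [← this]
    simp [hm1]
  have h1 : ∑ z : V → U, (∏ v, m (z v)) * ∏ e ∈ E, W (z e.1) (z e.2) =
      ∑ q : (V → U) × (V → U), (∏ v, m (q.1 v)) * (∏ v, m (q.2 v)) *
        ∏ e ∈ E, W (q.1 e.1) (q.1 e.2) := by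
    rw [Fintype.sum_prod_type]
    refine Finset.sum_congr rfl fun z _ => ?_
    simp only
    rw [← Finset.sum_mul, ← Finset.mul_sum, hone, mul_one]
  have h2 : bip m m E W = ∑ q : (V → U) × (V → U), (∏ v, m (q.1 v)) * (∏ v, m (q.2 v)) *
        ∏ e ∈ E, W (q.1 e.1) (q.2 e.2) := by
    unfold bip
    rw [Fintype.sum_prod_type]
  set P : V → Prop := fun v => ∃ e ∈ E, e.1 = v with hP
  set sw : (V → U) × (V → U) → (V → U) × (V → U) := fun q =>
    (fun v => if P v then q.1 v else q.2 v, fun v => if P v then q.2 v else q.1 v) with hsw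
  have hinv : Involutive sw := by
    intro q
    simp only [hsw]
    ext v
    · simp only
      split_ifs <;> rfl
    · simp only
      split_ifs <;> rfl
  rw [h1, h2, ← Equiv.sum_comp (hinv.toPerm sw)]
  refine Finset.sum_congr rfl fun q _ => ?_
  have h3 : (hinv.toPerm sw) q = sw q := rfl
  rw [h3]
  congr 1
  · rw [← Finset.prod_mul_distrib, ← Finset.prod_mul_distrib]
    refine Finset.prod_congr rfl fun v _ => ?_
    simp only [hsw]
    split_ifs
    · rfl
    · ring
  · refine Finset.prod_congr rfl fun e he => ?_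
    have h4 : P e.1 := ⟨e, he, rfl⟩
    have h5 : ¬ P e.2 := fun ⟨e', he', h⟩ => hE e' he' e he h
    simp only [hsw, h4, h5, if_true, if_false]

/-- the uniform weights -/
noncomputable def unif (X : Type) [Fintype X] : X → ℝ := fun _ => 1 / (Fintype.card X : ℝ)

theorem unif_nonneg (X : Type) [Fintype X] (x : X) : 0 ≤ unif X x := by
  unfold unif; positivity

theorem unif_sum (X : Type) [Fintype X] [Nonempty X] : ∑ x, unif X x = 1 := by
  unfold unif
  have : (Fintype.card X : ℝ) ≠ 0 := by exact_mod_cast Fintype.card_ne_zero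
  rw [Finset.sum_const, Finset.card_univ, nsmul_eq_mul]
  field_simp

theorem mean_unif {X : Type} [Fintype X] (W : X → X → ℝ) :
    mean (unif X) (unif X) W = (∑ x, ∑ y, W x y) / (Fintype.card X : ℝ) ^ 2 := by
  unfold mean unif
  simp only [← Finset.mul_sum]
  ring

/-- the sample inequality -/
theorem sample_of_good {V : Type} [Fintype V] [DecidableEq V] {E : Finset (V × V)}
    (hE : Oriented E) {N : ℕ} (hN : 0 < N) {W : Fin N → Fin N → ℝ}
    (hg : BGood (unif (Fin N)) (unif (Fin N)) W) :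
    ((∑ i, ∑ j, W i j) / (N : ℝ) ^ 2) ^ E.card ≤
      (∑ φ : V → Fin N, ∏ e ∈ E, W (φ e.1) (φ e.2)) / (N : ℝ) ^ Fintype.card V := by
  have : Nonempty (Fin N) := ⟨⟨0, hN⟩⟩
  have h := hg V V E
  rw [bip_self_eq (unif_sum _) hE, mean_unif, Fintype.card_fin] at h
  refine h.trans (le_of_eq ?_)
  rw [Finset.sum_div]
  refine Finset.sum_congr rfl fun z _ => ?_
  simp only [unif, Fintype.card_fin, Finset.prod_const, Finset.card_univ]
  rw [one_div, inv_pow]
  ring

/-- kernels on a probability space, one-sided -/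
theorem dens_of_good {V Ω : Type} [Fintype V] [DecidableEq V] [MeasurableSpace Ω]
    (μ : Measure Ω) [IsProbabilityMeasure μ] {W : Ω → Ω → ℝ} {C : ℝ}
    (hW : Measurable (uncurry W)) (hW0 : ∀ x y, 0 ≤ W x y) (hWC : ∀ x y, W x y ≤ C)
    {E : Finset (V × V)} (hE : Oriented E)
    (hg : ∀ N : ℕ, 0 < N → ∀ z : Fin N → Ω,
      BGood (unif (Fin N)) (unif (Fin N)) fun i j => W (z i) (z j)) :
    (∫ x, ∫ y, W x y ∂μ ∂μ) ^ E.card ≤ H392.dens μ E W :=
  dens_of_samples μ hW hW0 hWC E fun N hN z => sample_of_good hE hN (hg N hN z)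

/-- kernels on two probability spaces -/
theorem bip_of_good {A B Ω₁ Ω₂ : Type} [Fintype A] [Fintype B] [DecidableEq A] [DecidableEq B]
    [MeasurableSpace Ω₁] [MeasurableSpace Ω₂]
    (μ : Measure Ω₁) (ν : Measure Ω₂) [IsProbabilityMeasure μ]
    [IsProbabilityMeasure ν] {W : Ω₁ → Ω₂ → ℝ} {C : ℝ}
    (hW : Measurable (uncurry W)) (hW0 : ∀ x y, 0 ≤ W x y) (hWC : ∀ x y, W x y ≤ C)
    (E : Finset (A × B))
    (hg : ∀ N : ℕ, 0 < N → ∀ (z : Fin N → Ω₁) (w : Fin N → Ω₂),
      BGood (unif (Fin N)) (unif (Fin N)) fun i j => W (z i) (w j)) :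
    (∫ x, ∫ y, W x y ∂ν ∂μ) ^ E.card ≤ bipDensity μ ν E W := by
  set W' : Ω₁ × Ω₂ → Ω₁ × Ω₂ → ℝ := fun p q => W p.1 q.2 with hW'
  set ι : A × B → (A ⊕ B) × (A ⊕ B) := fun e => (Sum.inl e.1, Sum.inr e.2) with hι
  have hιinj : Injective ι := by
    intro e e' h
    simp only [hι, Prod.mk.injEq, Sum.inl.injEq, Sum.inr.injEq] at h
    exact Prod.ext h.1 h.2
  set E' : Finset ((A ⊕ B) × (A ⊕ B)) := E.image ι with hE'
  have hcard : E'.card = E.card := Finset.card_image_of_injective _ hιinj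
  have hmeas : Measurable (uncurry W') := by
    have : uncurry W' = uncurry W ∘ fun p : (Ω₁ × Ω₂) × (Ω₁ × Ω₂) => (p.1.1, p.2.2) := rfl
    rw [this]
    exact hW.comp (by fun_prop)
  have hmain := dens_of_good (V := A ⊕ B) (μ.prod ν) hmeas (fun x y => hW0 _ _)
    (fun x y => hWC _ _) (E := E') (by
      intro e he e' he'
      obtain ⟨a, _, rfl⟩ := Finset.mem_image.1 he
      obtain ⟨a', _, rfl⟩ := Finset.mem_image.1 he'
      simp [hι]) (fun N hN z => hg N hN (fun i => (z i).1) (fun i => (z i).2))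
  rw [hcard] at hmain
  -- the mean
  have hmean : ∫ x, ∫ y, W' x y ∂(μ.prod ν) ∂(μ.prod ν) = ∫ x, ∫ y, W x y ∂ν ∂μ := by
    have hsnd : ∀ f : Ω₂ → ℝ, Measurable f → ∫ q : Ω₁ × Ω₂, f q.2 ∂(μ.prod ν) = ∫ y, f y ∂ν := by
      intro f hf
      have h := (measurePreserving_snd (μ := μ) (ν := ν))
      rw [← h.map_eq, integral_map h.measurable.aemeasurable]
      · rw [h.map_eq]
      · rw [h.map_eq]; exact hf.aestronglyMeasurable
    have hfst : ∀ f : Ω₁ → ℝ, Measurable f → ∫ q : Ω₁ × Ω₂, f q.1 ∂(μ.prod ν) = ∫ y, f y ∂μ := by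
      intro f hf
      have h := (measurePreserving_fst (μ := μ) (ν := ν))
      rw [← h.map_eq, integral_map h.measurable.aemeasurable]
      · rw [h.map_eq]
      · rw [h.map_eq]; exact hf.aestronglyMeasurable
    have h1 : ∀ x : Ω₁ × Ω₂, ∫ y, W' x y ∂(μ.prod ν) = ∫ y, W x.1 y ∂ν := fun x =>
      hsnd (fun y => W x.1 y) (hW.comp (measurable_const.prodMk measurable_id))
    simp only [h1]
    refine hfst (fun x => ∫ y, W x y ∂ν) ?_
    exact (hW.stronglyMeasurable.integral_prod_right (ν := ν)).measurable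
  rw [hmean] at hmain
  refine hmain.trans (le_of_eq ?_)
  -- the density
  unfold H392.dens bipDensity
  have hprod : ∀ x : A ⊕ B → Ω₁ × Ω₂, ∏ e ∈ E', W' (x e.1) (x e.2) =
      ∏ e ∈ E, W (x (Sum.inl e.1)).1 (x (Sum.inr e.2)).2 := by
    intro x
    rw [hE', Finset.prod_image (fun a _ b _ h => hιinj h)]
  simp only [hprod]
  have h1 := measurePreserving_sumPiEquivProdPi (X := fun _ : A ⊕ B => Ω₁ × Ω₂)
    (fun _ : A ⊕ B => μ.prod ν)
  have hA : MeasurePreserving (fun (x : A → Ω₁ × Ω₂) (a : A) => (x a).1)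
      (Measure.pi fun _ : A => μ.prod ν) (Measure.pi fun _ : A => μ) :=
    measurePreserving_pi (fun _ : A => μ.prod ν) (fun _ : A => μ)
      (fun _ => measurePreserving_fst)
  have hB : MeasurePreserving (fun (x : B → Ω₁ × Ω₂) (b : B) => (x b).2)
      (Measure.pi fun _ : B => μ.prod ν) (Measure.pi fun _ : B => ν) :=
    measurePreserving_pi (fun _ : B => μ.prod ν) (fun _ : B => ν)
      (fun _ => measurePreserving_snd)
  have h2 := (hA.prod hB).comp h1
  set G : (A → Ω₁) × (B → Ω₂) → ℝ := fun p => ∏ e ∈ E, W (p.1 e.1) (p.2 e.2) with hG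
  have hGm : Measurable G := Finset.measurable_prod _ fun e _ => by
    have : (fun p : (A → Ω₁) × (B → Ω₂) => W (p.1 e.1) (p.2 e.2)) =
      uncurry W ∘ fun p : (A → Ω₁) × (B → Ω₂) => (p.1 e.1, p.2 e.2) := rfl
    rw [this]
    exact hW.comp (by fun_prop)
  have h3 : ∫ x : A ⊕ B → Ω₁ × Ω₂, ∏ e ∈ E, W (x (Sum.inl e.1)).1 (x (Sum.inr e.2)).2
      ∂(Measure.pi fun _ : A ⊕ B => μ.prod ν) =
      ∫ p, G p ∂((Measure.pi fun _ : A => μ).prod (Measure.pi fun _ : B => ν)) := by
    rw [← h2.map_eq, integral_map h2.measurable.aemeasurable hGm.aestronglyMeasurable]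
    rfl
  rw [h3, integral_prod]
  refine integrable_of_bounds hGm (c := C ^ E.card) fun p => ?_
  refine ⟨Finset.prod_nonneg fun _ _ => hW0 _ _, ?_⟩
  exact (Finset.prod_le_prod (fun _ _ => hW0 _ _) fun _ _ => hWC _ _).trans
    (by rw [Finset.prod_const])

/-- samples of locally decomposable kernels are good -/
theorem sample_good {Ω₁ Ω₂ : Type} {W : Ω₁ → Ω₂ → ℝ} (hW0 : ∀ x y, 0 ≤ W x y)
    (h : ∀ (R : Finset Ω₁) (S : Finset Ω₂), ∃ R' S', ↑R ⊆ R' ∧ ↑S ⊆ S' ∧ Decomposable W R' S')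
    {N : ℕ} (hN : 0 < N) (z : Fin N → Ω₁) (w : Fin N → Ω₂) :
    BGood (unif (Fin N)) (unif (Fin N)) fun i j => W (z i) (w j) := by
  classical
  have : Nonempty (Fin N) := ⟨⟨0, hN⟩⟩
  obtain ⟨R, S, hR, hS, hd⟩ := h (univ.image z) (univ.image w)
  exact hd.sound (fun x _ y _ => hW0 x y) _ _ z w _ _ (unif_nonneg _) (unif_sum _) (unif_nonneg _) (unif_sum _)
    (fun i _ => hR (by simp)) (fun j _ => hS (by simp))

end Vale.Agent.P050.Ultra
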