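import Vale.Agent.P050.Ultra.Class

/-!
Two-by-two block compositions and tree-like kernels are decomposable.
-/

namespace Vale.Agent.P050.Ultra

open Finset Function

universe u v

theorem Decomposable.blocks {X : Type u} {Y : Type v} {W : X → Y → ℝ} {R₁ R₂ : Set X}
    {S₁ S₂ : Set Y} {b b' : ℝ} (hR : Disjoint R₁ R₂) (hS : Disjoint S₁ S₂)
    (h12 : ∀ x ∈ R₁, ∀ y ∈ S₂, W x y = b) (h21 : ∀ x ∈ R₂, ∀ y ∈ S₁, W x y = b')
    (h1 : Decomposable W R₁ S₁) (h2 : Decomposable W R₂ S₂) :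
    Decomposable W (R₁ ∪ R₂) (S₁ ∪ S₂) := by
  classical
  have hR' : ∀ x ∈ R₁, x ∉ R₂ := fun x hx hx' => Set.disjoint_left.1 hR hx hx'
  have hS' : ∀ x ∈ S₁, x ∉ S₂ := fun x hx hx' => Set.disjoint_left.1 hS hx hx'
  have hR'' : ∀ x ∈ R₂, x ∉ R₁ := fun x hx hx' => Set.disjoint_left.1 hR hx' hx
  have hS'' : ∀ x ∈ S₂, x ∉ S₁ := fun x hx hx' => Set.disjoint_left.1 hS hx' hx
  refine Decomposable.module (R' := R₁) (S' := S₁) Set.subset_union_left Set.subset_union_left
    ?_ ?_ h1 fun p => ?_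
  · intro x hx x' hx' y hy
    have hy2 : y ∈ S₂ := hy.1.resolve_left hy.2
    rw [h12 x hx y hy2, h12 x' hx' y hy2]
  · intro y hy y' hy' x hx
    have hx2 : x ∈ R₂ := hx.1.resolve_left hx.2
    rw [h21 x hx2 y hy, h21 x hx2 y' hy']
  have f1 : ∀ x ∈ R₁, ∀ y ∈ S₁, fill W R₁ S₁ p x y = p := fun x hx y hy => if_pos ⟨hx, hy⟩
  have f2 : ∀ x ∈ R₂, ∀ y, fill W R₁ S₁ p x y = W x y := fun x hx y =>
    if_neg fun h => hR'' x hx h.1
  have f3 : ∀ x, ∀ y ∈ S₂, fill W R₁ S₁ p x y = W x y := fun x y hy =>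
    if_neg fun h => hS'' y hy h.2
  refine Decomposable.module (R' := R₂) (S' := S₂) Set.subset_union_right Set.subset_union_right
    ?_ ?_ (h2.congr fun x hx y hy => (f2 x hx y).symm) fun q => ?_
  · intro x hx x' hx' y hy
    have hy2 : y ∈ S₁ := hy.1.resolve_right hy.2
    rw [f2 x hx, f2 x' hx', h21 x hx y hy2, h21 x' hx' y hy2]
  · intro y hy y' hy' x hx
    have hx2 : x ∈ R₁ := hx.1.resolve_right hx.2
    rw [f3 x y hy, f3 x y' hy', h12 x hx2 y hy, h12 x hx2 y' hy']
  set V := fill (fill W R₁ S₁ p) R₂ S₂ q with hV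
  have v11 : ∀ x ∈ R₁, ∀ y ∈ S₁, V x y = p := fun x hx y hy => by
    rw [hV]; unfold fill; rw [if_neg fun h => hR' x hx h.1, if_pos ⟨hx, hy⟩]
  have v22 : ∀ x ∈ R₂, ∀ y ∈ S₂, V x y = q := fun x hx y hy => by
    rw [hV]; unfold fill; rw [if_pos ⟨hx, hy⟩]
  have v12 : ∀ x ∈ R₁, ∀ y ∈ S₂, V x y = b := fun x hx y hy => by
    rw [hV]; unfold fill
    rw [if_neg fun h => hR' x hx h.1, if_neg fun h => hS'' y hy h.2, h12 x hx y hy]
  have v21 : ∀ x ∈ R₂, ∀ y ∈ S₁, V x y = b' := fun x hx y hy => by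
    rw [hV]; unfold fill
    rw [if_neg fun h => hS' y hy h.2, if_neg fun h => hR'' x hx h.1, h21 x hx y hy]
  by_cases hpq : b * b' ≤ p * q
  · refine .minors V _ _ (fun x => if x ∈ R₂ then 1 else 0) (fun y => if y ∈ S₂ then 1 else 0) ?_
    rintro x (hx | hx) x' (hx' | hx') y (hy | hy) y' (hy' | hy') hr hs <;>
      simp only [hx, hx', hy, hy', v11, v12, v21, v22, hR', hS', if_true, if_false] at hr hs ⊢ <;>
      linarith
  · push Not at hpq
    refine .minors V _ _ (fun x => if x ∈ R₁ then 1 else 0) (fun y => if y ∈ S₂ then 1 else 0) ?_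
    rintro x (hx | hx) x' (hx' | hx') y (hy | hy) y' (hy' | hy') hr hs <;>
      simp only [hx, hx', hy, hy', v11, v12, v21, v22, hR'', hS', if_true, if_false]
        at hr hs ⊢ <;>
      linarith

/-- Tree-like kernels: symmetric; of the three values of each triple two are equal; and no four
points with three values on a path of length three, and three equal values, different from these,
on the complementary path. -/
def TreeLike {X : Type u} (W : X → X → ℝ) : Prop :=
  (∀ x y, W x y = W y x) ∧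
  (∀ x y z, W x y = W y z ∨ W x y = W x z ∨ W y z = W x z) ∧
  (∀ x y z t, W x y = W y z → W y z = W z t → W x z = W x t → W x t = W y t → W x y = W x z)

theorem cut_aux {X : Type u} [DecidableEq X] {W : X → X → ℝ} (hW : TreeLike W) {A B : Finset X}
    {v : X} {b : ℝ} (hcut : ∀ x ∈ A, ∀ y ∈ B, W x y = b) (hvA : v ∉ A)
    {b₀ a₁ : X} (hb₀ : b₀ ∈ B) (ha₁ : a₁ ∈ A) (hvb₀ : W v b₀ ≠ b) (hva₁ : W v a₁ = b) :
    ∃ C ⊆ insert v (A ∪ B), C.Nonempty ∧ (insert v (A ∪ B) \ C).Nonempty ∧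
      ∃ c, ∀ x ∈ C, ∀ y ∈ insert v (A ∪ B) \ C, W x y = c := by
  obtain ⟨hsym, htri, hP⟩ := hW
  -- the other values of `v`
  have hd : ∀ a ∈ A, W v a ≠ b → W v a = W v b₀ := by
    intro a ha hne
    rcases htri v a b₀ with h | h | h
    · rw [hcut a ha b₀ hb₀] at h; exact absurd h hne
    · exact h
    · rw [hcut a ha b₀ hb₀] at h; exact absurd h.symm hvb₀
  refine ⟨A.filter fun a => W v a = b, ?_, ⟨a₁, mem_filter.2 ⟨ha₁, hva₁⟩⟩, ⟨v, ?_⟩, b, ?_⟩
  · exact (filter_subset _ _).trans (subset_union_left.trans (subset_insert _ _))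
  · exact mem_sdiff.2 ⟨mem_insert_self _ _, fun h => hvA (mem_filter.1 h).1⟩
  · intro x hx y hy
    obtain ⟨hxA, hxb⟩ := mem_filter.1 hx
    obtain ⟨hy1, hy2⟩ := mem_sdiff.1 hy
    rcases mem_insert.1 hy1 with rfl | hy1
    · rw [hsym]; exact hxb
    rcases mem_union.1 hy1 with hyA | hyB
    · have hyb : W v y ≠ b := fun h => hy2 (mem_filter.2 ⟨hyA, h⟩)
      have hyd := hd y hyA hyb
      by_contra hne
      -- `x y`, `y v`, `v b₀` have the same value, `x v`, `x b₀`, `y b₀` have the value `b`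
      have hxy : W x y = W v y := by
        rcases htri v x y with h | h | h
        · rw [hxb] at h; exact absurd h.symm hne
        · rw [hxb] at h; exact absurd h.symm hyb
        · exact h
      have := hP x y v b₀ (by rw [hxy, hsym v y]) (by rw [hsym y v, hyd])
        (by rw [hsym x v, hxb, hcut x hxA b₀ hb₀])
        (by rw [hcut x hxA b₀ hb₀, hcut y hyA b₀ hb₀])
      rw [hsym x v, hxb] at this
      exact hne this
    · exact hcut x hxA y hyB

theorem TreeLike.exists_cut {X : Type u} [DecidableEq X] {W : X → X → ℝ} (hW : TreeLike W)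
    (T : Finset X) (hT : 2 ≤ T.card) :
    ∃ C ⊆ T, C.Nonempty ∧ (T \ C).Nonempty ∧ ∃ c, ∀ x ∈ C, ∀ y ∈ T \ C, W x y = c := by
  induction T using Finset.induction_on with
  | empty => simp at hT
  | insert v T hv ih =>
    by_cases hT1 : T.card ≤ 1
    · rw [card_insert_of_notMem hv] at hT
      obtain ⟨u, rfl⟩ := card_eq_one.1 (by omega : T.card = 1)
      refine ⟨{v}, by simp, by simp, ⟨u, ?_⟩, W v u, ?_⟩
      · exact mem_sdiff.2 ⟨by simp, fun h => hv (by rw [← mem_singleton.1 h]; simp)⟩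
      · intro x hx y hy
        simp only [mem_sdiff, mem_insert, mem_singleton] at hx hy
        rw [hx, hy.1.resolve_left hy.2]
    · obtain ⟨A, hAT, hA, hB, b, hcut⟩ := ih (by omega)
      set B := T \ A with hBdef
      have hTAB : A ∪ B = T := by rw [hBdef, union_sdiff_of_subset hAT]
      have hvA : v ∉ A := fun h => hv (hAT h)
      have hvB : v ∉ B := fun h => hv ((mem_sdiff.1 h).1)
      have hsym := hW.1
      have htri := hW.2.1
      by_cases h1 : ∀ a ∈ A, W v a = b
      · refine ⟨A, hAT.trans (subset_insert _ _), hA, ⟨v, ?_⟩, b, ?_⟩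
        · exact mem_sdiff.2 ⟨mem_insert_self _ _, hvA⟩
        · intro x hx y hy
          obtain ⟨hy1, hy2⟩ := mem_sdiff.1 hy
          rcases mem_insert.1 hy1 with rfl | hy1
          · rw [hsym]; exact h1 x hx
          · exact hcut x hx y (mem_sdiff.2 ⟨hy1, hy2⟩)
      by_cases h2 : ∀ a ∈ B, W v a = b
      · refine ⟨B, sdiff_subset.trans (subset_insert _ _), hB, ⟨v, ?_⟩, b, ?_⟩
        · exact mem_sdiff.2 ⟨mem_insert_self _ _, hvB⟩
        · intro x hx y hy
          obtain ⟨hy1, hy2⟩ := mem_sdiff.1 hy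
          rcases mem_insert.1 hy1 with rfl | hy1
          · rw [hsym]; exact h2 x hx
          · rw [hsym]
            refine hcut y ?_ x hx
            by_contra hc
            exact hy2 (mem_sdiff.2 ⟨hy1, hc⟩)
      push Not at h1 h2
      obtain ⟨a₀, ha₀, hva₀⟩ := h1
      obtain ⟨b₀, hb₀, hvb₀⟩ := h2
      by_cases h3 : ∃ a₁ ∈ A, W v a₁ = b
      · obtain ⟨a₁, ha₁, hva₁⟩ := h3
        have := cut_aux hW hcut hvA hb₀ ha₁ hvb₀ hva₁
        rwa [hTAB] at this
      by_cases h4 : ∃ b₁ ∈ B, W v b₁ = b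
      · obtain ⟨b₁, hb₁, hvb₁⟩ := h4
        have := cut_aux hW (A := B) (B := A) (fun x hx y hy => by rw [hsym]; exact hcut y hy x hx)
          hvB ha₀ hb₁ hva₀ hvb₁
        rwa [union_comm, hTAB] at this
      push Not at h3 h4
      have h5 : ∀ a ∈ A, W v a = W v b₀ := by
        intro a ha
        rcases htri v a b₀ with h | h | h
        · rw [hcut a ha b₀ hb₀] at h; exact absurd h (h3 a ha)
        · exact h
        · rw [hcut a ha b₀ hb₀] at h; exact absurd h.symm hvb₀
      have h6 : ∀ a ∈ B, W v a = W v b₀ := by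
        intro a ha
        rcases htri v a₀ a with h | h | h
        · rw [hcut a₀ ha₀ a ha] at h; exact absurd h hva₀
        · rw [← h, h5 a₀ ha₀]
        · rw [hcut a₀ ha₀ a ha] at h; exact absurd h.symm (h4 a ha)
      refine ⟨{v}, by simp, by simp, ?_, W v b₀, ?_⟩
      · obtain ⟨a, ha⟩ := hA
        refine ⟨a, mem_sdiff.2 ⟨mem_insert_of_mem (hAT ha), ?_⟩⟩
        rw [mem_singleton]
        rintro rfl
        exact hvA ha
      · intro x hx y hy
        rw [mem_singleton.1 hx]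
        obtain ⟨hy1, hy2⟩ := mem_sdiff.1 hy
        have hy3 : y ∈ T := (mem_insert.1 hy1).resolve_left fun h => hy2 (by simp [h])
        by_cases hyA : y ∈ A
        · exact h5 y hyA
        · exact h6 y (mem_sdiff.2 ⟨hy3, hyA⟩)

theorem TreeLike.decomposable {X : Type u} {W : X → X → ℝ} (hW : TreeLike W) (T : Finset X) :
    Decomposable W (T : Set X) (T : Set X) := by
  classical
  induction T using Finset.strongInduction with
  | H T ih =>
    by_cases hT : 2 ≤ T.card
    · obtain ⟨C, hCT, hC, hD, c, hcut⟩ := hW.exists_cut T hT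
      have h1 : T = C ∪ (T \ C) := (union_sdiff_of_subset hCT).symm
      have h2 : (T : Set X) = (C : Set X) ∪ ((T \ C : Finset X) : Set X) := by
        rw [← Finset.coe_union, ← h1]
      have hdis : Disjoint (C : Set X) ((T \ C : Finset X) : Set X) := by
        rw [Finset.disjoint_coe]; exact Finset.disjoint_sdiff
      have hss1 : C ⊂ T := by
        refine ⟨hCT, fun h => ?_⟩
        obtain ⟨x, hx⟩ := hD
        exact (mem_sdiff.1 hx).2 (h (mem_sdiff.1 hx).1)
      have hss2 : T \ C ⊂ T := by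
        refine ⟨sdiff_subset, fun h => ?_⟩
        obtain ⟨x, hx⟩ := hC
        exact (mem_sdiff.1 (h (hCT hx))).2 hx
      rw [h2]
      exact Decomposable.blocks hdis hdis (fun x hx y hy => hcut x hx y hy)
        (fun x hx y hy => by rw [hW.1]; exact hcut y hy x hx) (ih C hss1) (ih _ hss2)
    · have hle : ∀ x ∈ T, ∀ y ∈ T, x = y := Finset.card_le_one.1 (by omega)
      refine .minors W _ _ (fun _ => 0) (fun _ => 0) ?_
      intro x hx x' hx' y hy y' hy' _ _
      rw [hle x hx x' hx', hle y hy y' hy']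

end Vale.Agent.P050.Ultra
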